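import Vale.Agent.P146.H499.RepU
import Vale.Agent.P146.H693.Dic
import Vale.Agent.P146.H633.Psd1

/-!
The psd row in the letters of `R2Spec`: the number `R = E tr (Y C) |C|²`, its comparison with
`A3` and with `E tr (Y C²) |C|`, and the lower bound of the touch term by the overlap row.
-/

open MeasureTheory ProbabilityTheory

namespace Vale.Agent.P146.H499.RepT

open Vale.Agent.P157.Lv Vale.Agent.P146.H425 Vale.Agent.P146.H325 Vale.Agent.P146.H332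
  Vale.Agent.P146.H712 Vale.Agent.P146.H816 Vale.Agent.P146.R1 Vale.Agent.P146.R1C Matrix
  Vale.Agent.P146.R1S Vale.Agent.P146.H693 Vale.Agent.P146.H655
open Vale.Agent.P146.H785 (Ax)
open Vale.Agent.P146.H765 (qs qs_nonneg cvT Kv eg_cvT)
open Vale.Agent.P146.H633 (psd_cs qf_le_nf)
open Vale.Agent.P146.H522 (nf)
open Vale.Agent.P146.H95.R2 (Tw Yq)

set_option linter.unusedSectionVars false

variable {n : ℕ} {k x : ℝ} {S : CS n k x} {t2 c : ℝ} {m σ : ℕ → ℝ} {N : ℕ}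

/-! ### linear algebra -/

section lin

variable {q : Type} [Fintype q] [DecidableEq q] {A M : Matrix q q ℝ}

lemma form_dot (B : Matrix q q ℝ) (c : q → ℝ) :
    ∑ i, ∑ j, c i * c j * B i j = c ⬝ᵥ (B *ᵥ c) := by
  unfold dotProduct mulVec dotProduct
  refine Finset.sum_congr rfl fun i _ => ?_
  rw [Finset.mul_sum]
  exact Finset.sum_congr rfl fun j _ => by ring

lemma sq_form (hA : Aᵀ = A) (c : q → ℝ) :
    c ⬝ᵥ ((A * A) *ᵥ c) = ∑ i, (A *ᵥ c) i ^ 2 := by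
  rw [← mulVec_mulVec, dotProduct_mulVec, ← mulVec_transpose, hA]
  unfold dotProduct
  exact Finset.sum_congr rfl fun i _ => by ring

lemma cube_form (hA : Aᵀ = A) (c : q → ℝ) :
    c ⬝ᵥ ((A * A * A) *ᵥ c) = (A *ᵥ c) ⬝ᵥ (A *ᵥ (A *ᵥ c)) := by
  rw [← mulVec_mulVec, ← mulVec_mulVec, dotProduct_mulVec c, ← mulVec_transpose, hA]

/-- `A² ≤ |A| A` -/
lemma sq_le_nf (hA : Psd A) (c : q → ℝ) :
    ∑ i, (A *ᵥ c) i ^ 2 ≤ nf A * (c ⬝ᵥ (A *ᵥ c)) := by
  set v := A *ᵥ c with hv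
  set W := ∑ i, v i ^ 2 with hW
  have hW0 : 0 ≤ W := Finset.sum_nonneg fun i _ => sq_nonneg _
  have h1 := psd_cs hA v c
  have e1 : v ⬝ᵥ (A *ᵥ c) = W := by
    rw [← hv, hW]
    unfold dotProduct
    exact Finset.sum_congr rfl fun i _ => by ring
  rw [e1] at h1
  have h2 := (le_abs_self _).trans (qf_le_nf A v)
  have h3 : 0 ≤ c ⬝ᵥ (A *ᵥ c) := by rw [← form_dot]; exact hA.2 c
  have h4 : W ^ 2 ≤ (nf A * W) * (c ⬝ᵥ (A *ᵥ c)) :=
    h1.trans (mul_le_mul_of_nonneg_right h2 h3)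
  rcases hW0.eq_or_lt with h0 | h0
  · rw [← h0]
    exact mul_nonneg (Real.sqrt_nonneg _) h3
  · have : W * W ≤ (nf A * (c ⬝ᵥ (A *ᵥ c))) * W := by nlinarith
    exact le_of_mul_le_mul_right this h0

lemma smul_form (B : Matrix q q ℝ) (a : ℝ) (c : q → ℝ) :
    ∑ i, ∑ j, c i * c j * (Matrix.of (fun i j => a * A i j) - B) i j =
      a * (c ⬝ᵥ (A *ᵥ c)) - c ⬝ᵥ (B *ᵥ c) := by
  rw [← form_dot, ← form_dot, Finset.mul_sum, ← Finset.sum_sub_distrib]
  refine Finset.sum_congr rfl fun i _ => ?_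
  rw [Finset.mul_sum, ← Finset.sum_sub_distrib]
  refine Finset.sum_congr rfl fun j _ => ?_
  rw [Matrix.sub_apply, Matrix.of_apply]
  ring

lemma psd_sq (hA : Psd A) : Psd (Matrix.of (fun i j => nf A * A i j) - A * A) := by
  refine ⟨?_, fun c => ?_⟩
  · ext i j
    have h1 : A j i = A i j := congrFun (congrFun hA.1 i) j
    have h2 : (A * A) j i = (A * A) i j := by
      have h3 : (A * A)ᵀ = A * A := by rw [transpose_mul, hA.1]
      exact congrFun (congrFun h3 i) j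
    rw [transpose_apply, Matrix.sub_apply, Matrix.sub_apply, Matrix.of_apply, Matrix.of_apply,
      h1, h2]
  · rw [smul_form, sq_form hA.1]
    have := sq_le_nf hA c
    linarith

lemma psd_cube (hA : Psd A) : Psd (Matrix.of (fun i j => fr A * A i j) - A * A * A) := by
  refine ⟨?_, fun c => ?_⟩
  · ext i j
    have h1 : A j i = A i j := congrFun (congrFun hA.1 i) j
    have h2 : (A * A * A) j i = (A * A * A) i j := by
      have h3 : (A * A * A)ᵀ = A * A * A := by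
        rw [transpose_mul, transpose_mul, hA.1, ← Matrix.mul_assoc]
      exact congrFun (congrFun h3 i) j
    rw [transpose_apply, Matrix.sub_apply, Matrix.sub_apply, Matrix.of_apply, Matrix.of_apply,
      h1, h2]
  · rw [smul_form, cube_form hA.1]
    have h1 := (le_abs_self _).trans (qf_le_nf A (A *ᵥ c))
    have h2 := sq_le_nf hA c
    have h3 : 0 ≤ nf A := Real.sqrt_nonneg _
    have h4 : nf A * nf A = fr A := Real.mul_self_sqrt (H332.fr_nonneg A)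
    have h5 := mul_le_mul_of_nonneg_left h2 h3
    rw [← mul_assoc, h4] at h5
    linarith

lemma tr_sub (B : Matrix q q ℝ) (a : ℝ) :
    ∑ i, ∑ j, M i j * (Matrix.of (fun i j => a * A i j) - B) i j =
      a * (∑ i, ∑ j, M i j * A i j) - ∑ i, ∑ j, M i j * B i j := by
  rw [Finset.mul_sum, ← Finset.sum_sub_distrib]
  refine Finset.sum_congr rfl fun i _ => ?_
  rw [Finset.mul_sum, ← Finset.sum_sub_distrib]
  refine Finset.sum_congr rfl fun j _ => ?_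
  rw [Matrix.sub_apply, Matrix.of_apply]
  ring

/-- `tr (M A²) ≤ |A| tr (M A)` -/
lemma tr_sq_le (hM : Psd M) (hA : Psd A) :
    ∑ i, ∑ j, M i j * (A * A) i j ≤ nf A * ∑ i, ∑ j, M i j * A i j := by
  have h := hM.sum_mul_nonneg (psd_sq hA)
  rw [tr_sub] at h
  linarith

/-- `tr (M A³) ≤ |A|² tr (M A)` -/
lemma tr_cube_le (hM : Psd M) (hA : Psd A) :
    ∑ i, ∑ j, M i j * (A * A * A) i j ≤ fr A * ∑ i, ∑ j, M i j * A i j := by
  have h := hM.sum_mul_nonneg (psd_cube hA)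
  rw [tr_sub] at h
  linarith

end lin

/-! ### pointwise -/

/-- `tr (M A³) ≤ tr (M A) |A|²` -/
lemma T3_le {M : Matrix (Fin n) (Fin n) ℝ} (hM : Psd M) (t : ℝ) (u : Pair n → ℝ) :
    T3 S t M u ≤ tAf S t M u := by
  have h := tr_cube_le hM (S.psd_A t u)
  unfold T3 tAf tA
  linarith

/-- `tr (M A²) |A| ≤ tr (M A) |A|²` -/
lemma A2f_le {M : Matrix (Fin n) (Fin n) ℝ} (hM : Psd M) (t : ℝ) (u : Pair n → ℝ) :
    (∑ i, ∑ j, M i j * A2 S t i j u) * √(fr (S.A t u)) ≤ tAf S t M u := by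
  have h := tr_sq_le hM (S.psd_A t u)
  have e : ∑ i, ∑ j, M i j * (S.A t u * S.A t u) i j = ∑ i, ∑ j, M i j * A2 S t i j u := by
    refine Finset.sum_congr rfl fun i _ => Finset.sum_congr rfl fun j _ => ?_
    rw [Matrix.mul_apply]
    rfl
  rw [e] at h
  have h2 : nf (S.A t u) = √(fr (S.A t u)) := rfl
  rw [h2] at h
  have h3 := mul_le_mul_of_nonneg_right h (Real.sqrt_nonneg (fr (S.A t u)))
  have h4 : √(fr (S.A t u)) * √(fr (S.A t u)) = fr (S.A t u) :=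
    Real.mul_self_sqrt (H332.fr_nonneg _)
  unfold tAf tA
  calc _ ≤ _ := h3
    _ = (∑ i, ∑ j, M i j * S.A t u i j) * (√(fr (S.A t u)) * √(fr (S.A t u))) := by ring
    _ = _ := by rw [h4]

lemma tA_nonneg {M : Matrix (Fin n) (Fin n) ℝ} (hM : Psd M) (t : ℝ) (u : Pair n → ℝ) :
    0 ≤ tA S t M u := hM.sum_mul_nonneg (S.psd_A t u)

lemma tAf_nonneg {M : Matrix (Fin n) (Fin n) ℝ} (hM : Psd M) (t : ℝ) (u : Pair n → ℝ) :
    0 ≤ tAf S t M u := mul_nonneg (tA_nonneg hM t u) (H332.fr_nonneg _)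

lemma eg_T3 (t : ℝ) (M : Matrix (Fin n) (Fin n) ℝ) : EG (T3 S t M) := by
  have h : ∀ i j, EG fun u : Pair n → ℝ => (S.A t u * S.A t u * S.A t u) i j := by
    intro i j
    simp only [Matrix.mul_apply]
    exact EG.sum _ fun b _ => (EG.sum _ fun l _ => (S.eg_A t i l).mul (S.eg_A t l b)).mul
      (S.eg_A t b j)
  exact EG.sum _ fun i _ => EG.sum _ fun j _ => (h i j).const_mul _

lemma fr_A_le (t : ℝ) (u : Pair n → ℝ) : fr (S.A t u) ≤ (n : ℝ) ^ 2 := by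
  unfold fr
  have h1 : ∀ i j, S.A t u i j ^ 2 ≤ 1 := by
    intro i j
    rw [← sq_abs]
    exact pow_le_one₀ (abs_nonneg _) (S.abs_A t u i j)
  refine (Finset.sum_le_sum fun i _ => Finset.sum_le_sum fun j _ => h1 i j).trans ?_
  simp only [Finset.sum_const, Finset.card_univ, Fintype.card_fin, nsmul_eq_mul]
  exact le_of_eq (by ring)

lemma eg_sfr (t : ℝ) : EG fun u : Pair n → ℝ => √(fr (S.A t u)) := by
  refine EG.of_bdd ((eg_fr (S := S) t).meas.sqrt) (C := (n : ℝ)) fun u => ?_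
  rw [abs_of_nonneg (Real.sqrt_nonneg _)]
  refine Real.sqrt_le_iff.2 ⟨Nat.cast_nonneg n, fr_A_le t u⟩

/-! ### the layered means -/

lemma Tl_mono (hm : Pm m N) {φ ψ : (Pair n → ℝ) → ℝ} (hφ : EG φ) (hψ : EG ψ)
    (h : ∀ u, φ u ≤ ψ u) (z : Pair n → ℝ) : Tl S t2 m σ φ N z ≤ Tl S t2 m σ ψ N z := by
  have h1 : 0 ≤ Tl S t2 m σ (fun u => ψ u + (-1) * φ u) N z :=
    TP_nonneg (fun u => by have := h u; linarith) N z
  unfold Tl at *
  rw [TP_add hU hψ (hφ.const_mul _) N hm, TD_const_mul] at h1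
  simp only at h1
  linarith

lemma Tl_sum2' (hm : Pm m N) (M : Fin n → Fin n → ℝ)
    {f : Fin n → Fin n → (Pair n → ℝ) → ℝ} (hf : ∀ i j, EG (f i j)) (z : Pair n → ℝ) :
    Tl S t2 m σ (fun u => ∑ i, ∑ j, M i j * f i j u) N z =
      ∑ i, ∑ j, M i j * Tl S t2 m σ (f i j) N z := by
  unfold Tl
  rw [TP_sum hU _ (fun i _ => EG.sum _ fun j _ => (hf i j).const_mul _) N hm]
  refine Finset.sum_congr rfl fun i _ => ?_
  rw [TP_sum hU _ (fun j _ => (hf i j).const_mul _) N hm]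
  refine Finset.sum_congr rfl fun j _ => ?_
  rw [TD_const_mul]

lemma Tl_sum2 (hm : Pm m N) (M : Matrix (Fin n) (Fin n) ℝ)
    {f : Fin n → Fin n → (Pair n → ℝ) → ℝ} (hf : ∀ i j, EG (f i j)) (z : Pair n → ℝ) :
    Tl S t2 m σ (fun u => ∑ i, ∑ j, M i j * f i j u) N z =
      ∑ i, ∑ j, M i j * Tl S t2 m σ (f i j) N z := Tl_sum2' hm (fun i j => M i j) hf z

/-- a form in `M`, at `M = QR`, is admissible -/
lemma eg_TQ (hm : Pm m N) {Φ : Matrix (Fin n) (Fin n) ℝ → (Pair n → ℝ) → ℝ}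
    {f : Fin n → Fin n → (Pair n → ℝ) → ℝ} (hf : ∀ i j, EG (f i j))
    (hΦ : ∀ M, Φ M = fun u => ∑ i, ∑ j, M i j * f i j u) :
    EG fun z => Tl S t2 m σ (Φ (QR S t2 m σ N z)) N z := by
  have h : (fun z => Tl S t2 m σ (Φ (QR S t2 m σ N z)) N z) = fun z =>
      ∑ i, ∑ j, QR S t2 m σ N z i j * Tl S t2 m σ (f i j) N z := by
    funext z
    rw [hΦ]
    exact Tl_sum2 hm _ hf z
  rw [h]
  exact EG.sum _ fun i _ => EG.sum _ fun j _ => (eg_QR N hm i j).mul (eg_Tl (hf i j) N hm)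

lemma eg_QtAf (hm : Pm m N) : EG fun z => Tl S t2 m σ (tAf S t2 (QR S t2 m σ N z)) N z :=
  eg_TQ (Φ := fun M => tAf S t2 M) hm (fun i j => eg_fE t2 i j)
    fun M => funext fun u => tAf_eq t2 M u

lemma eg_Qrr (hm : Pm m N) : EG fun z => Tl S t2 m σ (rr S t2 (QR S t2 m σ N z)) N z :=
  eg_TQ (Φ := fun M => rr S t2 M) hm (fun i j => eg_rE t2 i j)
    fun M => funext fun u => rr_eq t2 M u

lemma eg_QT3 (hm : Pm m N) : EG fun z => Tl S t2 m σ (T3 S t2 (QR S t2 m σ N z)) N z := by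
  refine eg_TQ (Φ := fun M => T3 S t2 M) (f := fun i j u => (S.A t2 u * S.A t2 u * S.A t2 u) i j)
    hm (fun i j => ?_) fun M => rfl
  simp only [Matrix.mul_apply]
  exact EG.sum _ fun b _ => (EG.sum _ fun l _ => (S.eg_A t2 i l).mul (S.eg_A t2 l b)).mul
    (S.eg_A t2 b j)

/-- `tr (M A²) |A|` -/
noncomputable def qsf (S : CS n k x) (t : ℝ) (M : Matrix (Fin n) (Fin n) ℝ)
    (u : Pair n → ℝ) : ℝ := (∑ i, ∑ j, M i j * A2 S t i j u) * √(fr (S.A t u))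

lemma qsf_eq (t : ℝ) (M : Matrix (Fin n) (Fin n) ℝ) :
    qsf S t M = fun u => ∑ i, ∑ j, M i j * (A2 S t i j u * √(fr (S.A t u))) := by
  funext u
  unfold qsf
  rw [Finset.sum_mul]
  refine Finset.sum_congr rfl fun i _ => ?_
  rw [Finset.sum_mul]
  exact Finset.sum_congr rfl fun j _ => by ring

lemma eg_qsfE (t : ℝ) (i j : Fin n) :
    EG fun u : Pair n → ℝ => A2 S t i j u * √(fr (S.A t u)) :=
  (eg_A2 S t i j).mul (eg_sfr t)

lemma eg_qsf (t : ℝ) (M : Matrix (Fin n) (Fin n) ℝ) : EG (qsf S t M) := by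
  rw [qsf_eq]
  exact EG.sum _ fun i _ => EG.sum _ fun j _ => (eg_qsfE t i j).const_mul _

lemma eg_Qqsf (hm : Pm m N) : EG fun z => Tl S t2 m σ (qsf S t2 (QR S t2 m σ N z)) N z :=
  eg_TQ (Φ := fun M => qsf S t2 M) hm (fun i j => eg_qsfE t2 i j) fun M => qsf_eq t2 M

/-! ### the numbers of the two layer law -/

variable {p : Tw}

/-- `R = E tr (Y C) |C|²` -/
noncomputable def nRR (S : CS n k x) (p : Tw) : ℝ :=
  ∫ g, Tl S p.t2 p.m p.σ (tAf S p.t2 (Yq S p g)) 3 (√p.t0 • g) ∂(gI (Pair n))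

/-- `E (s' Y s) (s' C s)` -/
noncomputable def nRt (S : CS n k x) (p : Tw) : ℝ :=
  ∫ g, Tl S p.t2 p.m p.σ (rr S p.t2 (Yq S p g)) 3 (√p.t0 • g) ∂(gI (Pair n))

/-- `E tr (Y C²) |C|` -/
noncomputable def nRs (S : CS n k x) (p : Tw) : ℝ :=
  ∫ g, Tl S p.t2 p.m p.σ (qsf S p.t2 (Yq S p g)) 3 (√p.t0 • g) ∂(gI (Pair n))

/-- `E tr (Y C)` -/
noncomputable def nBB (S : CS n k x) (p : Tw) : ℝ :=
  ∫ g, Tl S p.t2 p.m p.σ (tA S p.t2 (Yq S p g)) 3 (√p.t0 • g) ∂(gI (Pair n))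

lemma Yq_psd (hm : Pm p.m 3) (g : Pair n → ℝ) : Psd (Yq S p g) := QR_psd 3 hm _

/-- **`A3 ≤ R`** -/
theorem nA3_le_nRR (hm : Pm p.m 3) : H95.R2.nA3 S p ≤ nRR S p :=
  integral_mono (H693.eg_scale (eg_QT3 (S := S) (t2 := p.t2) (σ := p.σ) hm) (√p.t0)).integrable
    (H693.eg_scale (eg_QtAf (S := S) (t2 := p.t2) (σ := p.σ) hm) (√p.t0)).integrable
    fun g => Tl_mono hm (eg_T3 p.t2 _) (eg_tAf p.t2 _) (fun u => T3_le (Yq_psd hm g) p.t2 u) _

/-- **`E tr (Y C²) |C| ≤ R`** -/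
theorem nRs_le_nRR (hm : Pm p.m 3) : nRs S p ≤ nRR S p :=
  integral_mono (H693.eg_scale (eg_Qqsf (S := S) (t2 := p.t2) (σ := p.σ) hm) (√p.t0)).integrable
    (H693.eg_scale (eg_QtAf (S := S) (t2 := p.t2) (σ := p.σ) hm) (√p.t0)).integrable
    fun g => Tl_mono hm (eg_qsf p.t2 _) (eg_tAf p.t2 _) (fun u => A2f_le (Yq_psd hm g) p.t2 u) _

theorem nRR_nonneg (hm : Pm p.m 3) : 0 ≤ nRR S p :=
  integral_nonneg fun g => TP_nonneg (fun u => tAf_nonneg (Yq_psd hm g) p.t2 u) 3 _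

/-! ### the psd row -/

section row

variable {q : Par} {S' : CS n k q.x} {y l : ℝ}

/-- **The psd row** `hP`: the touch term is at least `k x ((1 - e0) R - A3)`. -/
theorem hP (hv : Kv S') (hT : Tm q y l) (ht2 : 0 < q.s2) {e0 : ℝ}
    (hRR : (1 - e0) * nRR S' (tw q y l) ≤ nRt S' (tw q y l)) :
    k * q.x * ((1 - e0) * nRR S' (tw q y l) - H95.R2.nA3 S' (tw q y l)) ≤
      EwG q (R1C.GTwo q y l S'.F S'.D) S'.F (nTt S' y l) := by
  have hm : Pm (tw q y l).m 3 := by rw [tw_m]; exact pm3 S'.x0 hT.hy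
  have hk : 0 ≤ k * q.x := mul_nonneg S'.k0.le S'.x0.le
  have h1 : k * q.x * ((1 - e0) * nRR S' (tw q y l) - H95.R2.nA3 S' (tw q y l)) ≤
      k * q.x * (nRt S' (tw q y l) - H95.R2.nA3 S' (tw q y l)) :=
    mul_le_mul_of_nonneg_left (by linarith) hk
  refine h1.trans ?_
  rw [num_Tt hT]
  have eR := H693.eg_scale (eg_Qrr (S := S') (t2 := (tw q y l).t2) (σ := (tw q y l).σ) hm)
    (√(tw q y l).t0)
  have e3 := H693.eg_scale (eg_QT3 (S := S') (t2 := (tw q y l).t2) (σ := (tw q y l).σ) hm)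
    (√(tw q y l).t0)
  have h2 : nRt S' (tw q y l) - H95.R2.nA3 S' (tw q y l) =
      ∫ g, (Tl S' (tw q y l).t2 (tw q y l).m (tw q y l).σ
        (rr S' (tw q y l).t2 (Yq S' (tw q y l) g)) 3 (√(tw q y l).t0 • g) -
      Tl S' (tw q y l).t2 (tw q y l).m (tw q y l).σ
        (T3 S' (tw q y l).t2 (Yq S' (tw q y l) g)) 3 (√(tw q y l).t0 • g)) ∂(gI (Pair n)) :=
    (integral_sub eR.integrable e3.integrable).symm
  rw [h2, ← integral_const_mul]
  refine integral_mono ((eR.sub e3).const_mul _).integrable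
    (H693.eg_scale (eg_fTt hT (S := S')) (√q.t0)).integrable fun g => ?_
  simp only
  have hY : Yd S' y l (√q.t0 • g) = Yq S' (tw q y l) g := (Yq_eq g).symm
  rw [hY]
  have h3 := H765.Tl_ge (S := S') (t2 := q.s2) (σ := (tw q y l).σ) hv 3 hm ht2
    (Yq_psd (S := S') hm g) (√q.t0 • g)
  have h4 : Tl S' q.s2 (tw q y l).m (tw q y l).σ (cvT S' q.s2 (Yq S' (tw q y l) g)) 3
      (√q.t0 • g) = Tl S' q.s2 (tw q y l).m (tw q y l).σ
        (rr S' q.s2 (Yq S' (tw q y l) g)) 3 (√q.t0 • g) -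
      Tl S' q.s2 (tw q y l).m (tw q y l).σ
        (T3 S' q.s2 (Yq S' (tw q y l) g)) 3 (√q.t0 • g) := by
    have e5 : cvT S' q.s2 (Yq S' (tw q y l) g) = fun u =>
        rr S' q.s2 (Yq S' (tw q y l) g) u + (-1) * T3 S' q.s2 (Yq S' (tw q y l) g) u := by
      funext u
      unfold cvT rr
      ring
    rw [e5]
    unfold Tl
    rw [TP_add hU (eg_rr q.s2 _) ((eg_T3 q.s2 _).const_mul _) 3 hm, TD_const_mul]
    simp only
    ring
  rw [h4] at h3
  rw [tw_m, tw_σ] at h3 ⊢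
  exact h3

end row

end Vale.Agent.P146.H499.RepT
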