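import Vale.Agent.P146.H518.End

set_option linter.all false

/-!
The statement of `VarianceBounds2` with the rate `n^{1/3} r^{-2/3}`: the sharp moment law and upper
tail for `x ≥ n ^ (-a)`, `a < 2 / 17`, and `n p - E F_n ≤ D n ^ (7 / 17) (1 + log n) ^ 2`.
-/

open MeasureTheory ProbabilityTheory Filter Topology

namespace Vale.Agent.P146.H499.T29

open Vale.Agent.P146 Vale.Agent.P146.H605

theorem bounds17 (h : ∀ β : ℝ, 1 < β → ∃ C, 0 ≤ C ∧ H518.Dblc β (2 / 3) C) :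
    ∃ Λ : ℝ → ℝ, Tendsto Λ (𝓝[>] 1) (𝓝 (9 / 5120)) ∧
    ∀ β : ℝ, 1 < β → 0 < Λ β ∧ ∃ p D : ℝ,
    Tendsto (fun n : ℕ => (∫ g, freeEnergy n β g ∂(disorder n)) / n) atTop (𝓝 p) ∧
    -- the sharp moment law and the sharp upper tail
    (∀ ε : ℝ, 0 < ε → ∀ a : ℝ, a < 2 / 17 → ∃ δ : ℝ, 0 < δ ∧ ∀ᶠ n : ℕ in atTop,
      (∀ x : ℝ, (n : ℝ) ^ (-a) ≤ x → x ≤ δ →
        |Real.log (∫ g, Real.exp (x * (freeEnergy n β g - n * p)) ∂(disorder n)) -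
          Λ β * n * x ^ 6| ≤ ε * n * x ^ 6) ∧
      (∀ s : ℝ, (n : ℝ) ^ (-(5 * a)) ≤ s → s ≤ δ →
        |Real.log ((disorder n).real {g | n * (p + s) ≤ freeEnergy n β g}) +
          5 / 6 * (6 * Λ β) ^ (-(1 / 5) : ℝ) * n * s ^ (6 / 5 : ℝ)| ≤
            ε * n * s ^ (6 / 5 : ℝ))) ∧
    (∀ n : ℕ, 1 ≤ n →
      -- the finite-size correction of the mean
      0 ≤ n * p - ∫ g, freeEnergy n β g ∂(disorder n) ∧
      n * p - ∫ g, freeEnergy n β g ∂(disorder n) ≤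
        D * (n : ℝ) ^ (7 / 17 : ℝ) * (1 + Real.log n) ^ 2 ∧
      -- one small exponential moment
      (∀ r : ℝ, 0 < r → r ≤ 1 → 1 ≤ r ^ 6 * n →
        n * p - 1 / r * Real.log (∫ g, Real.exp (r * freeEnergy n β g) ∂(disorder n)) ≤
          D * (1 + Real.log n) * ((n : ℝ) ^ (1 / 3 : ℝ) * r ^ (-(2 / 3) : ℝ))) ∧
      (∀ r : ℝ, 0 < r → r ≤ 1 / (16 * (1 + Real.log n)) →
        n * p - ∫ g, freeEnergy n β g ∂(disorder n) ≤
          2 * (n * p - 1 / r * Real.log (∫ g, Real.exp (r * freeEnergy n β g) ∂(disorder n))) +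
            D * n * r ^ 5 * (1 + Real.log n) ^ 5 + D) ∧
      -- the overlap near equal disorders
      (∀ t : ℝ, 0 ≤ t → t ≤ 1 →
        (1 - 1 / β) ^ 2 - D * (n : ℝ) ^ (-(5 / 17) : ℝ) * (1 + Real.log n) -
          (1 - t) * (β ^ 2 * n / 2) ≤ crossOverlap n β t)) := by
  obtain ⟨Λ, hΛ, hβ⟩ := H518.final_c (θ := 2 / 17) (c := 2 / 3) (by norm_num) (by norm_num)
    (by norm_num) h
  refine ⟨Λ, hΛ, fun β h1 => ?_⟩
  obtain ⟨h0, p, κ₀, C, hκ, h2, h3, h4, h5, h6, -⟩ := hβ β h1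
  refine ⟨h0, p, C, h2, h3, fun n hn => ?_⟩
  obtain ⟨g1, g2, g3, g4, g5, g6, g7, g8⟩ := h4 n hn
  refine ⟨g1, ?_, fun r hr hr1 hr6 => ?_, g8, fun t ht ht1 => ?_⟩
  · have e1 : (1 : ℝ) - 5 * (2 / 17) = 7 / 17 := by norm_num
    rw [e1] at g2
    exact g2
  · have h7 := h5 n hn r hr hr1 hr6
    rw [pow_one] at h7
    exact h7
  · have h7 := g7 t ht ht1
    have e1 : (-(5 * (2 / 17) / 2) : ℝ) = -(5 / 17) := by norm_num
    have e2 : (((1 + 1 : ℕ) : ℝ)) / 2 = 1 := by norm_num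
    rw [e1, e2, Real.rpow_one] at h7
    exact h7

end Vale.Agent.P146.H499.T29
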