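import Vale.Agent.P146.H941.HessS

/-!
The deterministic identities of the row (F0) of the plan R2, for a position system `CS`: the sum over
the sites of the derivatives of `(A * A) k b` in the row `b`, paired with a matrix `Q`, and the
positivity of the term with the four point derivatives.
-/

open MeasureTheory ProbabilityTheory

namespace Vale.Agent.P146.H499

open Vale.Agent.P157.Lv Vale.Agent.P146.H425 Vale.Agent.P146.H325 Vale.Agent.P146.H332
  Vale.Agent.P146.H712 Vale.Agent.P146.H816 Vale.Agent.P146.R1 Vale.Agent.P146.R1C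
  Vale.Agent.P146.R1S Matrix

set_option linter.unusedSectionVars false

/-- a positive semidefinite matrix is a sum of squares -/
lemma psd_decomp {q : Type} [Fintype q] [DecidableEq q] {X : Matrix q q ℝ} (hX : Psd X) :
    ∃ (U : Matrix q q ℝ) (l : q → ℝ), (∀ a, 0 ≤ l a) ∧
      ∀ i j, X i j = ∑ a, l a * U i a * U j a := by
  obtain ⟨U, l, h1, h2, h3⟩ := diag_sym hX.1
  have hX' : ∀ i j, X i j = ∑ a, l a * U i a * U j a := by
    intro i j
    rw [h3, mul_apply]
    refine Finset.sum_congr rfl fun a _ => ?_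
    rw [mul_diagonal, transpose_apply]; ring
  refine ⟨U, l, fun a => ?_, hX'⟩
  have h4 : Uᵀ * X * U = diagonal l := by
    rw [h3]
    calc Uᵀ * (U * diagonal l * Uᵀ) * U = (Uᵀ * U) * diagonal l * (Uᵀ * U) := by
          simp only [Matrix.mul_assoc]
      _ = _ := by rw [h2, Matrix.one_mul, Matrix.mul_one]
  have h5 : l a = ∑ i, ∑ j, U i a * U j a * X i j := by
    have : (Uᵀ * X * U) a a = l a := by rw [h4, diagonal_apply_eq]
    rw [← this, mul_apply]
    simp only [mul_apply, Finset.sum_mul, transpose_apply]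
    rw [Finset.sum_comm]
    exact Finset.sum_congr rfl fun i _ => Finset.sum_congr rfl fun j _ => by ring
  rw [h5]
  exact hX.2 fun i => U i a

variable {n : ℕ}

/-- the sum over the rows of a function of the site, the coupling and the other site -/
lemma sum_row_two (f : Fin n → Fin n → Pair n → ℝ) :
    ∑ b, ∑ e ∈ row b, f b (oth b e) e =
      ∑ e : Pair n, (f e.1.1 e.1.2 e + f e.1.2 e.1.1 e) := by
  have h1 : ∀ b : Fin n, ∑ e ∈ row b, f b (oth b e) e = ∑ e : Pair n,
      ((if e.1.1 = b then f e.1.1 e.1.2 e else 0) +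
        (if e.1.2 = b then f e.1.2 e.1.1 e else 0)) := by
    intro b
    unfold H325.row
    rw [Finset.sum_filter]
    refine Finset.sum_congr rfl fun e _ => ?_
    have h := e.2
    unfold oth
    by_cases h1 : e.1.1 = b
    · have h2 : e.1.2 ≠ b := by rw [← h1]; exact h.ne'
      simp [h1, h2]
    · by_cases h2 : e.1.2 = b
      · simp [h1, h2]
      · simp [h1, h2]
  simp_rw [h1]
  rw [Finset.sum_comm]
  refine Finset.sum_congr rfl fun e _ => ?_
  rw [Finset.sum_add_distrib, Finset.sum_ite_eq, Finset.sum_ite_eq]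
  simp only [Finset.mem_univ, if_true]

/-- pairing of a symmetric matrix with zero diagonal with a product of vectors -/
lemma sum_sym_pair (p q : Fin n → ℝ) (M : Fin n → Fin n → ℝ) (hM : ∀ i j, M i j = M j i)
    (h0 : ∀ i, M i i = 0) :
    ∑ k, ∑ l, p k * q l * M k l =
      ∑ e : Pair n, (p e.1.1 * q e.1.2 + p e.1.2 * q e.1.1) * M e.1.1 e.1.2 := by
  have h1 : ∑ k, ∑ l, p k * q l * M k l = ∑ k, ∑ l, p l * q k * M k l := by
    rw [Finset.sum_comm]
    exact Finset.sum_congr rfl fun l _ => Finset.sum_congr rfl fun k _ => by rw [hM k l]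
  have h2 := sum_pairs (fun k l => (p k * q l + p l * q k) * M k l)
    (fun k l => by rw [hM k l]; ring) (fun k => by rw [h0, mul_zero])
  have h3 : ∑ k, ∑ l, (p k * q l + p l * q k) * M k l =
      ∑ k, ∑ l, p k * q l * M k l + ∑ k, ∑ l, p l * q k * M k l := by
    simp only [add_mul, Finset.sum_add_distrib]
  rw [h3, ← h1] at h2
  linarith

variable {k x : ℝ} (S : CS n k x)

/-- the term with the four point derivatives, for two vectors -/
lemma touch_two (s : ℝ) (z : Pair n → ℝ) (p q : Fin n → ℝ) :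
    0 ≤ ∑ b, ∑ e ∈ row b, p (oth b e) * q b * ∑ i, ∑ l, p i * q l * S.DA s e z i l := by
  have h1 := sum_row_two (n := n)
    (fun b j e => p j * q b * ∑ i, ∑ l, p i * q l * S.DA s e z i l)
  rw [h1]
  have h2 : ∀ e : Pair n, ∑ i, ∑ l, p i * q l * S.DA s e z i l =
      ∑ f : Pair n, (p f.1.1 * q f.1.2 + p f.1.2 * q f.1.1) * S.DA s e z f.1.1 f.1.2 := fun e =>
    sum_sym_pair p q (fun i l => S.DA s e z i l) (fun i j => S.DA_comm s e z i j)
      (fun i => S.DA_self s e z i)
  simp only [h2]
  refine (S.DA_psd s z fun e => p e.1.1 * q e.1.2 + p e.1.2 * q e.1.1).trans (le_of_eq ?_)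
  refine Finset.sum_congr rfl fun e _ => ?_
  rw [← add_mul, Finset.mul_sum]
  exact Finset.sum_congr rfl fun f _ => by ring

/-- **(F0), the positive term.** For positive semidefinite `Q`, `C` -/
theorem touch_nonneg (s : ℝ) (z : Pair n → ℝ) {Q C : Matrix (Fin n) (Fin n) ℝ} (hQ : Psd Q)
    (hC : Psd C) :
    0 ≤ ∑ b, ∑ e ∈ row b, ∑ i, Q i (oth b e) * ∑ l, S.DA s e z i l * C l b := by
  obtain ⟨U, lQ, hQ0, hQ'⟩ := psd_decomp hQ
  obtain ⟨V, lC, hC0, hC'⟩ := psd_decomp hC
  have key : ∑ b, ∑ e ∈ row b, ∑ i, Q i (oth b e) * ∑ l, S.DA s e z i l * C l b =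
      ∑ a, ∑ c, lQ a * lC c * ∑ b, ∑ e ∈ row b, U (oth b e) a * V b c *
        ∑ i, ∑ l, U i a * V l c * S.DA s e z i l := by
    have e1 : ∀ (b : Fin n) (e : Pair n), ∑ i, Q i (oth b e) * ∑ l, S.DA s e z i l * C l b =
        ∑ a, ∑ c, lQ a * lC c * (U (oth b e) a * V b c *
          ∑ i, ∑ l, U i a * V l c * S.DA s e z i l) := by
      intro b e
      simp only [hQ', hC', Finset.mul_sum, Finset.sum_mul]
      -- order the sums
      calc ∑ i, ∑ l, ∑ c, ∑ a, lQ a * U i a * U (oth b e) a *
              (S.DA s e z i l * (lC c * V l c * V b c)) =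
          ∑ i, ∑ l, ∑ a, ∑ c, lQ a * U i a * U (oth b e) a *
              (S.DA s e z i l * (lC c * V l c * V b c)) :=
            Finset.sum_congr rfl fun i _ => Finset.sum_congr rfl fun l _ => Finset.sum_comm
        _ = ∑ i, ∑ a, ∑ l, ∑ c, lQ a * U i a * U (oth b e) a *
              (S.DA s e z i l * (lC c * V l c * V b c)) :=
            Finset.sum_congr rfl fun i _ => Finset.sum_comm
        _ = ∑ a, ∑ i, ∑ l, ∑ c, lQ a * U i a * U (oth b e) a *
              (S.DA s e z i l * (lC c * V l c * V b c)) := Finset.sum_comm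
        _ = ∑ a, ∑ i, ∑ c, ∑ l, lQ a * U i a * U (oth b e) a *
              (S.DA s e z i l * (lC c * V l c * V b c)) :=
            Finset.sum_congr rfl fun a _ => Finset.sum_congr rfl fun i _ => Finset.sum_comm
        _ = ∑ a, ∑ c, ∑ i, ∑ l, lQ a * U i a * U (oth b e) a *
              (S.DA s e z i l * (lC c * V l c * V b c)) :=
            Finset.sum_congr rfl fun a _ => Finset.sum_comm
        _ = _ := Finset.sum_congr rfl fun a _ => Finset.sum_congr rfl fun c _ =>
            Finset.sum_congr rfl fun i _ => Finset.sum_congr rfl fun l _ => by ring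
    simp only [e1]
    have e2 : ∀ b : Fin n, ∑ e ∈ row b, ∑ a, ∑ c, lQ a * lC c * (U (oth b e) a * V b c *
          ∑ i, ∑ l, U i a * V l c * S.DA s e z i l) =
        ∑ a, ∑ c, ∑ e ∈ row b, lQ a * lC c * (U (oth b e) a * V b c *
          ∑ i, ∑ l, U i a * V l c * S.DA s e z i l) := by
      intro b
      rw [Finset.sum_comm]
      exact Finset.sum_congr rfl fun a _ => Finset.sum_comm
    simp only [e2]
    rw [Finset.sum_comm]
    refine Finset.sum_congr rfl fun a _ => ?_
    rw [Finset.sum_comm]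
    refine Finset.sum_congr rfl fun c _ => ?_
    rw [Finset.mul_sum]
    refine Finset.sum_congr rfl fun b _ => ?_
    rw [Finset.mul_sum]
  rw [key]
  exact Finset.sum_nonneg fun a _ => Finset.sum_nonneg fun c _ =>
    mul_nonneg (mul_nonneg (hQ0 a) (hC0 c)) (touch_two S s z (fun i => U i a) fun l => V l c)

/-- **(F0), the row term.** -/
theorem site_row {s : ℝ} (hs : 0 < s) (z : Pair n → ℝ) (Q C : Matrix (Fin n) (Fin n) ℝ) :
    ∑ b, ∑ e ∈ row b, ∑ i, Q i (oth b e) * ∑ l, C i l * S.DA s e z l b =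
      k * ∑ b, ∑ i, ∑ j, Q i j * (C * S.H s b z) i j := by
  rw [Finset.mul_sum]
  refine Finset.sum_congr rfl fun b _ => ?_
  have e1 : ∀ e ∈ row b, ∑ i, Q i (oth b e) * ∑ l, C i l * S.DA s e z l b =
      (fun j => ∑ i, Q i j * (k * (C * S.H s b z) i j)) (oth b e) := by
    intro e he
    refine Finset.sum_congr rfl fun i _ => ?_
    congr 1
    rw [mul_apply, Finset.mul_sum]
    refine Finset.sum_congr rfl fun l _ => ?_
    rw [S.DA_row hs he]
    ring
  rw [Finset.sum_congr rfl e1, sum_row_all b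
    (G := fun j => ∑ i, Q i j * (k * (C * S.H s b z) i j)) (by
      refine Finset.sum_eq_zero fun i _ => ?_
      have : (C * S.H s b z) i b = 0 := by
        rw [mul_apply]
        exact Finset.sum_eq_zero fun l _ => by rw [S.H_row hs, mul_zero]
      rw [this, mul_zero, mul_zero])]
  rw [Finset.sum_comm, Finset.mul_sum]
  refine Finset.sum_congr rfl fun i _ => ?_
  rw [Finset.mul_sum]
  exact Finset.sum_congr rfl fun j _ => by ring

/-- **(F0), the term of the change of the law.** `B = A_{t2}`, `B' = A_{tw}` have equal diagonals. -/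
theorem site_law (Q M B B' : Matrix (Fin n) (Fin n) ℝ) (hB : ∀ b, B b b = B' b b)
    (hs : ∀ i j, B i j = B j i) (hs' : ∀ i j, B' i j = B' j i) :
    ∑ b, ∑ e ∈ row b, ∑ i, Q i (oth b e) * (M i b * (B e.1.1 e.1.2 - B' e.1.1 e.1.2)) =
      ∑ i, ∑ j, Q i j * (M * (B - B')) i j := by
  have e0 : ∀ (b : Fin n), ∀ e ∈ row b, B e.1.1 e.1.2 - B' e.1.1 e.1.2 =
      (B - B') b (oth b e) := by
    intro b e he
    rw [mem_row] at he
    unfold oth
    rw [Matrix.sub_apply]
    split_ifs with h1
    · rw [h1]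
    · rw [he.resolve_left h1, hs e.1.1 b, hs' e.1.1 b]
  have e1 : ∀ b : Fin n, ∑ e ∈ row b, ∑ i, Q i (oth b e) *
      (M i b * (B e.1.1 e.1.2 - B' e.1.1 e.1.2)) =
      ∑ j, ∑ i, Q i j * (M i b * (B - B') b j) := by
    intro b
    rw [← sum_row_all b (G := fun j => ∑ i, Q i j * (M i b * (B - B') b j)) (by
      refine Finset.sum_eq_zero fun i _ => ?_
      rw [Matrix.sub_apply, hB b, sub_self, mul_zero, mul_zero])]
    refine Finset.sum_congr rfl fun e he => ?_
    exact Finset.sum_congr rfl fun i _ => by rw [e0 b e he]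
  simp only [e1]
  rw [Finset.sum_comm]
  rw [Finset.sum_comm (s := (Finset.univ : Finset (Fin n))) (t := (Finset.univ : Finset (Fin n)))
    (f := fun i j => Q i j * (M * (B - B')) i j)]
  refine Finset.sum_congr rfl fun j _ => ?_
  rw [Finset.sum_comm]
  refine Finset.sum_congr rfl fun i _ => ?_
  rw [mul_apply, Finset.mul_sum]

end Vale.Agent.P146.H499
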