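import Vale.Agent.P146.R3.H49.Lam
import Vale.Agent.P150.Bdl.B1
import Vale.Agent.P146.H499.Psd4

/-!
Row (F0a) of the plan R2: the upper edge of the symmetric matrix of the couplings. For a random
positive semidefinite matrix `M` with trace at most `K`,
`E tr (Z M) ≤ (2 √n + r) E tr M + K n exp (-r²/16)`, by the comparison of the soft maxima over finite
families of unit vectors, the Gaussian concentration and a countable dense family.
-/

open MeasureTheory ProbabilityTheory Filter Topology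

namespace Vale.Agent.P146.H499

open Vale.Agent.P157.Lv Vale.Agent.P146.H425 Vale.Agent.P146.H332 Matrix
open Vale.Agent.P146.R3.H49.Lam (free_le2 int_sq_coord)
open Vale.Agent.P367.GT (integrable_log_part)

set_option linter.unusedSectionVars false

variable {n : ℕ}

/-- the symmetric matrix with zero diagonal of the couplings -/
noncomputable def Zm (z : Pair n → ℝ) : Matrix (Fin n) (Fin n) ℝ := fun i j =>
  if h : i < j then z ⟨(i, j), h⟩ else if h : j < i then z ⟨(j, i), h⟩ else 0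

lemma Zm_symm (z : Pair n → ℝ) (i j : Fin n) : Zm z i j = Zm z j i := by
  unfold Zm
  rcases lt_trichotomy i j with h | h | h
  · rw [dif_pos h, dif_neg h.not_gt, dif_pos h]
  · subst h; rfl
  · rw [dif_neg h.not_gt, dif_pos h, dif_pos h]

lemma Zm_self (z : Pair n → ℝ) (i : Fin n) : Zm z i i = 0 := by
  unfold Zm
  rw [dif_neg (lt_irrefl i), dif_neg (lt_irrefl i)]

lemma Zm_pair (z : Pair n → ℝ) (e : Pair n) : Zm z e.1.1 e.1.2 = z e := by
  unfold Zm
  rw [dif_pos e.2]

/-- the coefficients of the quadratic form -/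
def cp (v : Fin n → ℝ) (e : Pair n) : ℝ := 2 * (v e.1.1 * v e.1.2)

/-- the quadratic form -/
noncomputable def qz (v : Fin n → ℝ) (z : Pair n → ℝ) : ℝ := ∑ e, cp v e * z e

lemma qz_eq (v : Fin n → ℝ) (z : Pair n → ℝ) : ∑ i, ∑ j, v i * v j * Zm z i j = qz v z := by
  rw [sum_sym_pair v v (fun i j => Zm z i j) (Zm_symm z) (Zm_self z)]
  unfold qz cp
  refine Finset.sum_congr rfl fun e _ => ?_
  rw [Zm_pair]; ring

/-- sums of squares over the pairs -/
lemma sum_pair_le (f : Fin n → Fin n → ℝ) (hs : ∀ i j, f i j = f j i) :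
    ∑ e : Pair n, (2 * f e.1.1 e.1.2) ^ 2 ≤ 2 * ∑ i, ∑ j, f i j ^ 2 := by
  have h1 := sum_pairs (n := n) (fun i j => if i = j then 0 else f i j ^ 2)
    (fun i j => by
      by_cases h : i = j
      · subst h; rfl
      · rw [if_neg h, if_neg (Ne.symm h), hs i j]) (fun i => by simp)
  have h2 : ∑ e : Pair n, (2 * f e.1.1 e.1.2) ^ 2 =
      2 * (2 * ∑ e : Pair n, if e.1.1 = e.1.2 then (0 : ℝ) else f e.1.1 e.1.2 ^ 2) := by
    rw [Finset.mul_sum, Finset.mul_sum]
    refine Finset.sum_congr rfl fun e _ => ?_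
    rw [if_neg e.2.ne]; ring
  have h3 : ∑ i, ∑ j, (if i = j then (0 : ℝ) else f i j ^ 2) ≤ ∑ i, ∑ j, f i j ^ 2 := by
    refine Finset.sum_le_sum fun i _ => Finset.sum_le_sum fun j _ => ?_
    split_ifs
    · exact sq_nonneg _
    · exact le_rfl
  rw [h2]
  linarith

lemma sum_cp_sq (v : Fin n → ℝ) : ∑ e, cp v e ^ 2 ≤ 2 * (∑ i, v i ^ 2) ^ 2 := by
  have h := sum_pair_le (fun i j => v i * v j) fun i j => mul_comm _ _
  refine h.trans (le_of_eq ?_)
  rw [sq (∑ i, v i ^ 2), Finset.sum_mul_sum]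
  congr 1
  exact Finset.sum_congr rfl fun i _ => Finset.sum_congr rfl fun j _ => by ring

/-- the increments -/
lemma inc_pair {u v : Fin n → ℝ} (hu : ∑ i, u i ^ 2 = 1) (hv : ∑ i, v i ^ 2 = 1) :
    ∑ e, (cp u e - cp v e) ^ 2 ≤ ∑ i, (2 * u i - 2 * v i) ^ 2 := by
  have h := sum_pair_le (fun i j => u i * u j - v i * v j) fun i j => by ring
  have h1 : ∑ e, (cp u e - cp v e) ^ 2 =
      ∑ e : Pair n, (2 * (u e.1.1 * u e.1.2 - v e.1.1 * v e.1.2)) ^ 2 :=
    Finset.sum_congr rfl fun e _ => by unfold cp; ring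
  set c := ∑ i, u i * v i with hc
  have h2 : ∑ i, ∑ j, (u i * u j - v i * v j) ^ 2 = 2 - 2 * c ^ 2 := by
    have e1 : ∀ i j, (u i * u j - v i * v j) ^ 2 =
        u i ^ 2 * u j ^ 2 + v i ^ 2 * v j ^ 2 - 2 * ((u i * v i) * (u j * v j)) := fun i j => by ring
    simp only [e1, Finset.sum_sub_distrib, Finset.sum_add_distrib, ← Finset.mul_sum,
      ← Finset.sum_mul, hu, hv, ← hc]
    ring
  have h3 : ∑ i, (2 * u i - 2 * v i) ^ 2 = 4 * (2 - 2 * c) := by
    have e1 : ∀ i, (2 * u i - 2 * v i) ^ 2 = 4 * (u i ^ 2 + v i ^ 2 - 2 * (u i * v i)) :=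
      fun i => by ring
    simp only [e1]
    rw [← Finset.mul_sum, Finset.sum_sub_distrib, Finset.sum_add_distrib, ← Finset.mul_sum, hu, hv,
      ← hc]
    ring
  rw [h1, h3]
  refine h.trans ?_
  rw [h2]
  nlinarith [sq_nonneg (1 - c)]

section fam

variable {S : Type} [Fintype S] [Nonempty S]

/-- the mean of the soft maximum -/
lemma mean_soft (hn : 0 < n) {r : ℝ} (hr : 0 < r) (V : S → Fin n → ℝ)
    (hV : ∀ x, ∑ i, V x i ^ 2 = 1) :
    ∫ z, Real.log (∑ x, Real.exp (∑ e, r * cp (V x) e * z e)) ∂(gI (Pair n)) ≤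
      Real.log (Fintype.card S) + 2 * √n * r := by
  classical
  have hn' : (0 : ℝ) < n := by exact_mod_cast hn
  have hs : 0 < √(n : ℝ) := Real.sqrt_pos.2 hn'
  have hss : √(n : ℝ) * √(n : ℝ) = n := Real.mul_self_sqrt hn'.le
  have hc : (1 : ℝ) ≤ Fintype.card S := by exact_mod_cast Fintype.card_pos
  have key := free_le2 (fun x e => r * cp (V x) e) (fun x i => r * (2 * V x i)) (by
    intro s t
    have h1 := inc_pair (hV s) (hV t)
    have e1 : ∑ e, (r * cp (V s) e - r * cp (V t) e) ^ 2 =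
        r ^ 2 * ∑ e, (cp (V s) e - cp (V t) e) ^ 2 := by
      rw [Finset.mul_sum]
      exact Finset.sum_congr rfl fun e _ => by ring
    have e2 : ∑ i, (r * (2 * V s i) - r * (2 * V t i)) ^ 2 =
        r ^ 2 * ∑ i, (2 * V s i - 2 * V t i) ^ 2 := by
      rw [Finset.mul_sum]
      exact Finset.sum_congr rfl fun e _ => by ring
    rw [e1, e2]
    exact mul_le_mul_of_nonneg_left h1 (sq_nonneg r))
  have h2 : ∀ h : Fin n → ℝ, Real.log (∑ x, Real.exp (∑ i, r * (2 * V x i) * h i)) ≤
      Real.log (Fintype.card S) + r * (√n + 1 / √n * ∑ i, h i ^ 2) := by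
    intro h
    have h3 : ∀ x, ∑ i, r * (2 * V x i) * h i ≤ r * (√n + 1 / √n * ∑ i, h i ^ 2) := by
      intro x
      have h4 : 0 ≤ ∑ i, √n * (V x i - 1 / √n * h i) ^ 2 :=
        Finset.sum_nonneg fun i _ => mul_nonneg hs.le (sq_nonneg _)
      have h5 : ∑ i, √n * (V x i - 1 / √n * h i) ^ 2 =
          (√n + 1 / √n * ∑ i, h i ^ 2) - ∑ i, 2 * V x i * h i := by
        have h6 : ∀ i, √n * (V x i - 1 / √n * h i) ^ 2 =
            √n * V x i ^ 2 + 1 / √n * h i ^ 2 - 2 * V x i * h i := by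
          intro i
          field_simp
          ring
        simp only [h6]
        rw [Finset.sum_sub_distrib, Finset.sum_add_distrib, ← Finset.mul_sum, ← Finset.mul_sum,
          hV x, mul_one]
      rw [h5] at h4
      have h8 : ∑ i, r * (2 * V x i) * h i = r * ∑ i, 2 * V x i * h i := by
        rw [Finset.mul_sum]
        exact Finset.sum_congr rfl fun i _ => by ring
      rw [h8]
      exact mul_le_mul_of_nonneg_left (by linarith) hr.le
    have h9 : ∑ x, Real.exp (∑ i, r * (2 * V x i) * h i) ≤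
        Fintype.card S * Real.exp (r * (√n + 1 / √n * ∑ i, h i ^ 2)) := by
      refine (Finset.sum_le_sum fun x _ => Real.exp_le_exp.2 (h3 x)).trans ?_
      rw [Finset.sum_const, nsmul_eq_mul, Finset.card_univ]
    have h10 := Real.log_le_log (Finset.sum_pos (fun _ _ => Real.exp_pos _)
      Finset.univ_nonempty) h9
    rwa [Real.log_mul (by positivity) (Real.exp_pos _).ne', Real.log_exp] at h10
  have i1 : Integrable (fun h : Fin n → ℝ => ∑ i, h i ^ 2) (gI (Fin n)) :=
    (EG.sum _ fun i _ => (EG.coord i).pow 2).integrable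
  have i2 : Integrable (fun h : Fin n → ℝ => 1 / √(n : ℝ) * ∑ i, h i ^ 2) (gI (Fin n)) :=
    i1.const_mul _
  have i3 : Integrable (fun h : Fin n → ℝ => √(n : ℝ) + 1 / √(n : ℝ) * ∑ i, h i ^ 2)
      (gI (Fin n)) := (integrable_const (√(n : ℝ))).add i2
  have hi : Integrable (fun h : Fin n → ℝ => Real.log (Fintype.card S) +
      r * (√n + 1 / √n * ∑ i, h i ^ 2)) (gI (Fin n)) :=
    (integrable_const _).add (i3.const_mul r)
  have h11 : ∫ h : Fin n → ℝ, (Real.log (Fintype.card S) +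
      r * (√n + 1 / √n * ∑ i, h i ^ 2)) ∂(gI (Fin n)) =
      Real.log (Fintype.card S) + 2 * √n * r := by
    rw [integral_add (integrable_const _) (i3.const_mul r),
      integral_const_mul, integral_add (integrable_const _) i2, integral_const_mul,
      integral_finsetSum _ fun i _ => ((EG.coord i).pow 2).integrable]
    simp only [int_sq_coord, integral_const, probReal_univ, smul_eq_mul, one_mul,
      Finset.sum_const, Finset.card_univ, Fintype.card_fin, nsmul_eq_mul, mul_one]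
    have : 1 / √(n : ℝ) * n = √n := by
      rw [one_div, inv_mul_eq_iff_eq_mul₀ hs.ne', hss]
    rw [this]
    ring
  refine key.trans ?_
  rw [← h11]
  exact integral_mono (integrable_log_part (fun x i => r * (2 * V x i))) hi h2

/-- the maximum over a finite family -/
noncomputable def mx (V : S → Fin n → ℝ) (z : Pair n → ℝ) : ℝ :=
  Finset.univ.sup' Finset.univ_nonempty fun x => qz (V x) z

lemma le_mx (V : S → Fin n → ℝ) (z : Pair n → ℝ) (x : S) : qz (V x) z ≤ mx V z :=
  Finset.le_sup' (fun x => qz (V x) z) (Finset.mem_univ x)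

lemma qz_sub (v : Fin n → ℝ) (hv : ∑ i, v i ^ 2 = 1) (z w : Pair n → ℝ) :
    qz v z - qz v w ≤ √2 * Vale.Agent.P150.F.ed z w := by
  have h1 : qz v z - qz v w = ∑ e, cp v e * (z e - w e) := by
    unfold qz
    rw [← Finset.sum_sub_distrib]
    exact Finset.sum_congr rfl fun e _ => by ring
  have h2 : (∑ e, cp v e * (z e - w e)) ^ 2 ≤ (∑ e, cp v e ^ 2) * ∑ e, (z e - w e) ^ 2 :=
    Finset.sum_mul_sq_le_sq_mul_sq _ _ _
  have h3 : ∑ e, cp v e ^ 2 ≤ 2 := by
    have := sum_cp_sq v
    rw [hv] at this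
    linarith
  have h4 : (∑ e, cp v e * (z e - w e)) ^ 2 ≤ (√2 * Vale.Agent.P150.F.ed z w) ^ 2 := by
    rw [mul_pow, Real.sq_sqrt (by norm_num), Vale.Agent.P150.F.ed_sq]
    exact h2.trans (mul_le_mul_of_nonneg_right h3 (Finset.sum_nonneg fun _ _ => sq_nonneg _))
  rw [h1]
  exact le_of_abs_le (abs_le_of_sq_le_sq' h4 (by
    have := Vale.Agent.P150.F.ed_nonneg z w
    positivity) |> fun h => abs_le.2 h)

lemma mx_lip (V : S → Fin n → ℝ) (hV : ∀ x, ∑ i, V x i ^ 2 = 1) :
    Vale.Agent.P150.F.Lip (√2) (mx V) := by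
  have h1 : ∀ z w, mx V z - mx V w ≤ √2 * Vale.Agent.P150.F.ed z w := by
    intro z w
    have : mx V z ≤ √2 * Vale.Agent.P150.F.ed z w + mx V w := by
      refine Finset.sup'_le _ _ fun x _ => ?_
      have h2 := qz_sub (V x) (hV x) z w
      have h3 := le_mx V w x
      linarith
    linarith
  intro z w
  have hsym : Vale.Agent.P150.F.ed w z = Vale.Agent.P150.F.ed z w := by
    unfold Vale.Agent.P150.F.ed
    congr 1
    exact Finset.sum_congr rfl fun i _ => by ring
  refine abs_le.2 ⟨?_, h1 z w⟩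
  have := h1 w z
  rw [hsym] at this
  linarith

/-- the mean of the maximum -/
lemma mean_mx (hn : 0 < n) (V : S → Fin n → ℝ) (hV : ∀ x, ∑ i, V x i ^ 2 = 1) :
    ∫ z, mx V z ∂(gI (Pair n)) ≤ 2 * √n := by
  have hi : Integrable (mx V) (gI (Pair n)) := (mx_lip V hV).integrable
  have hc : (1 : ℝ) ≤ Fintype.card S := by exact_mod_cast Fintype.card_pos
  have hl : 0 ≤ Real.log (Fintype.card S) := Real.log_nonneg hc
  have h1 : ∀ r : ℝ, 0 < r → ∫ z, mx V z ∂(gI (Pair n)) ≤
      2 * √n + Real.log (Fintype.card S) / r := by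
    intro r hr
    have h2 := mean_soft hn hr V hV
    have h3 : ∀ z, r * mx V z ≤ Real.log (∑ x, Real.exp (∑ e, r * cp (V x) e * z e)) := by
      intro z
      obtain ⟨x, -, hx⟩ := Finset.exists_mem_eq_sup' (Finset.univ_nonempty (α := S))
        fun x => qz (V x) z
      have e1 : mx V z = qz (V x) z := hx
      rw [e1, Real.le_log_iff_exp_le (Finset.sum_pos (fun _ _ => Real.exp_pos _)
        Finset.univ_nonempty)]
      have e2 : r * qz (V x) z = ∑ e, r * cp (V x) e * z e := by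
        unfold qz
        rw [Finset.mul_sum]
        exact Finset.sum_congr rfl fun e _ => by ring
      rw [e2]
      exact Finset.single_le_sum (f := fun x => Real.exp (∑ e, r * cp (V x) e * z e))
        (fun _ _ => (Real.exp_pos _).le) (Finset.mem_univ x)
    have h4 : r * ∫ z, mx V z ∂(gI (Pair n)) ≤ Real.log (Fintype.card S) + 2 * √n * r := by
      refine le_trans ?_ h2
      rw [← integral_const_mul]
      exact integral_mono (hi.const_mul r) (integrable_log_part (fun x e => r * cp (V x) e)) h3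
    have h5 : 2 * √n + Real.log (Fintype.card S) / r =
        (Real.log (Fintype.card S) + 2 * √n * r) / r := by field_simp; ring
    rw [h5, le_div_iff₀ hr]
    linarith
  refine le_of_forall_pos_le_add fun ε hε => ?_
  rcases eq_or_lt_of_le hl with h | h
  · have := h1 1 one_pos
    rw [← h] at this
    linarith
  · have := h1 (Real.log (Fintype.card S) / ε) (by positivity)
    rw [div_div_cancel₀ h.ne'] at this
    exact this

/-- the upper tail of the maximum over a finite family -/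
lemma fin_tail (hn : 0 < n) (V : S → Fin n → ℝ) (hV : ∀ x, ∑ i, V x i ^ 2 = 1) {r : ℝ}
    (hr : 0 ≤ r) :
    (gI (Pair n)).real {z | ∃ x, 2 * √n + r < qz (V x) z} ≤ Real.exp (-(r ^ 2 / 8)) := by
  have h := (mx_lip V hV).tail (by positivity : (0 : ℝ) < √2) hr
  have h1 : (gI (Pair n)).real {z | ∃ x, 2 * √n + r < qz (V x) z} ≤
      (gI (Pair n)).real {z | (∫ z', mx V z' ∂(gI (Pair n))) + r ≤ mx V z} := by
    refine measureReal_mono ?_
    rintro z ⟨x, hx⟩
    have h2 := le_mx V z x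
    have h3 := mean_mx hn V hV
    show (∫ z', mx V z' ∂(gI (Pair n))) + r ≤ mx V z
    linarith
  refine h1.trans (h.trans (le_of_eq ?_))
  rw [Real.sq_sqrt (by norm_num)]
  norm_num

end fam

/-- **The upper edge**: off an event of probability at most `exp (-r²/8)` the quadratic form is at
most `2 √n + r`. -/
theorem edge_event (hn : 0 < n) {r : ℝ} (hr : 0 ≤ r) :
    ∃ B : Set (Pair n → ℝ), MeasurableSet B ∧ (gI (Pair n)).real B ≤ Real.exp (-(r ^ 2 / 8)) ∧
      ∀ z, z ∉ B → ∀ v : Fin n → ℝ, qz v z ≤ (2 * √n + r) * ∑ i, v i ^ 2 := by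
  classical
  have hne : Nonempty {v : Fin n → ℝ // ∑ i, v i ^ 2 = 1} :=
    ⟨⟨Pi.single ⟨0, hn⟩ 1, by
      rw [Finset.sum_eq_single (⟨0, hn⟩ : Fin n)] <;> simp +contextual⟩⟩
  set d : ℕ → {v : Fin n → ℝ // ∑ i, v i ^ 2 = 1} := TopologicalSpace.denseSeq _ with hd
  set A : ℕ → Set (Pair n → ℝ) := fun m =>
    {z | ∃ k : Fin (m + 1), 2 * √n + r < qz (d k).1 z} with hA
  have hmono : Monotone A := by
    intro m m' hm z hz
    obtain ⟨k, hk⟩ := hz
    exact ⟨⟨k, by omega⟩, hk⟩
  have hqc : ∀ v : Fin n → ℝ, Continuous fun z : Pair n → ℝ => qz v z := by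
    intro v
    unfold qz
    fun_prop
  have hmeas : ∀ m, MeasurableSet (A m) := by
    intro m
    have : A m = ⋃ k : Fin (m + 1), {z | 2 * √n + r < qz (d k).1 z} := by
      ext z; simp [hA]
    rw [this]
    exact MeasurableSet.iUnion fun k =>
      (isOpen_lt continuous_const (hqc _)).measurableSet
  have hb : ∀ m, (gI (Pair n)) (A m) ≤ ENNReal.ofReal (Real.exp (-(r ^ 2 / 8))) := by
    intro m
    have h := fin_tail (S := Fin (m + 1)) hn (fun k => (d k).1) (fun k => (d k).2) hr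
    rw [← ENNReal.ofReal_toReal (measure_ne_top (gI (Pair n)) (A m))]
    exact ENNReal.ofReal_le_ofReal h
  have hU : (gI (Pair n)) (⋃ m, A m) ≤ ENNReal.ofReal (Real.exp (-(r ^ 2 / 8))) := by
    rw [hmono.measure_iUnion]
    exact iSup_le hb
  refine ⟨⋃ m, A m, MeasurableSet.iUnion hmeas, ?_, ?_⟩
  · calc (gI (Pair n)).real (⋃ m, A m) ≤ (ENNReal.ofReal (Real.exp (-(r ^ 2 / 8)))).toReal :=
        ENNReal.toReal_mono ENNReal.ofReal_ne_top hU
      _ = _ := ENNReal.toReal_ofReal (Real.exp_pos _).le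
  · intro z hz v
    by_contra hcon
    push Not at hcon
    apply hz
    have hp0 : 0 ≤ ∑ i, v i ^ 2 := Finset.sum_nonneg fun i _ => sq_nonneg _
    have hp : 0 < ∑ i, v i ^ 2 := by
      rcases lt_or_eq_of_le hp0 with h | h
      · exact h
      · exfalso
        have hv0 : ∀ i, v i = 0 := by
          intro i
          have := (Finset.sum_eq_zero_iff_of_nonneg fun i _ => sq_nonneg (v i)).1 h.symm i
            (Finset.mem_univ i)
          exact pow_eq_zero_iff (two_ne_zero) |>.1 this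
        have : qz v z = 0 := by
          unfold qz cp
          exact Finset.sum_eq_zero fun e _ => by rw [hv0]; ring
        rw [this, ← h, mul_zero] at hcon
        exact lt_irrefl _ hcon
    set c : ℝ := (√(∑ i, v i ^ 2))⁻¹ with hc
    have hs0 : 0 < √(∑ i, v i ^ 2) := Real.sqrt_pos.2 hp
    have hcc : c ^ 2 * ∑ i, v i ^ 2 = 1 := by
      rw [hc, inv_pow, Real.sq_sqrt hp.le, inv_mul_cancel₀ hp.ne']
    have hc0 : 0 < c ^ 2 := by positivity
    have hu1 : ∑ i, (c * v i) ^ 2 = 1 := by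
      rw [← hcc, Finset.mul_sum]
      exact Finset.sum_congr rfl fun i _ => by ring
    have hu2 : 2 * √n + r < qz (fun i => c * v i) z := by
      have e1 : qz (fun i => c * v i) z = c ^ 2 * qz v z := by
        unfold qz cp
        rw [Finset.mul_sum]
        exact Finset.sum_congr rfl fun e _ => by ring
      rw [e1]
      have h1 := mul_lt_mul_of_pos_left hcon hc0
      have h2 : c ^ 2 * ((2 * √n + r) * ∑ i, v i ^ 2) = 2 * √n + r := by
        rw [mul_left_comm, hcc, mul_one]
      rwa [h2] at h1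
    have hcont : Continuous fun w : {v : Fin n → ℝ // ∑ i, v i ^ 2 = 1} => qz w.1 z := by
      have h1 : Continuous fun w : Fin n → ℝ => qz w z := by
        unfold qz cp
        fun_prop
      exact h1.comp continuous_subtype_val
    have hopen : IsOpen {w : {v : Fin n → ℝ // ∑ i, v i ^ 2 = 1} | 2 * √n + r < qz w.1 z} :=
      isOpen_lt continuous_const hcont
    obtain ⟨k, hk⟩ := (TopologicalSpace.denseRange_denseSeq
      {v : Fin n → ℝ // ∑ i, v i ^ 2 = 1}).exists_mem_open hopen ⟨⟨fun i => c * v i, hu1⟩, hu2⟩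
    exact Set.mem_iUnion.2 ⟨k, ⟨⟨k, by omega⟩, hk⟩⟩

/-- the trace of `Z M` for a positive semidefinite `M`, from a bound of the quadratic form -/
lemma tr_le_of_qz {M : Matrix (Fin n) (Fin n) ℝ} (hM : Psd M) {z : Pair n → ℝ} {L : ℝ}
    (h : ∀ v : Fin n → ℝ, qz v z ≤ L * ∑ i, v i ^ 2) :
    ∑ i, ∑ j, Zm z i j * M i j ≤ L * M.trace := by
  obtain ⟨U, l, hl, hU⟩ := psd_decomp hM
  have h1 : ∑ i, ∑ j, Zm z i j * M i j = ∑ a, l a * qz (fun i => U i a) z := by
    have e1 : ∀ a, l a * qz (fun i => U i a) z =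
        ∑ i, ∑ j, Zm z i j * (l a * U i a * U j a) := by
      intro a
      rw [← qz_eq, Finset.mul_sum]
      refine Finset.sum_congr rfl fun i _ => ?_
      rw [Finset.mul_sum]
      exact Finset.sum_congr rfl fun j _ => by ring
    simp only [e1, hU, Finset.mul_sum]
    calc ∑ i, ∑ j, ∑ a, Zm z i j * (l a * U i a * U j a) =
        ∑ i, ∑ a, ∑ j, Zm z i j * (l a * U i a * U j a) :=
          Finset.sum_congr rfl fun i _ => Finset.sum_comm
      _ = _ := Finset.sum_comm
  have h2 : M.trace = ∑ a, l a * ∑ i, U i a ^ 2 := by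
    unfold Matrix.trace
    simp only [Matrix.diag_apply, hU, Finset.mul_sum]
    rw [Finset.sum_comm]
    exact Finset.sum_congr rfl fun a _ => Finset.sum_congr rfl fun i _ => by ring
  rw [h1, h2, Finset.mul_sum]
  refine Finset.sum_le_sum fun a _ => ?_
  have := mul_le_mul_of_nonneg_left (h fun i => U i a) (hl a)
  linarith

lemma qz_le_norm (z : Pair n → ℝ) (v : Fin n → ℝ) :
    qz v z ≤ √(2 * ∑ e, z e ^ 2) * ∑ i, v i ^ 2 := by
  have h2 : (qz v z) ^ 2 ≤ (∑ e, cp v e ^ 2) * ∑ e, z e ^ 2 :=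
    Finset.sum_mul_sq_le_sq_mul_sq _ _ _
  have h3 := sum_cp_sq v
  have h0 : 0 ≤ ∑ e, z e ^ 2 := Finset.sum_nonneg fun _ _ => sq_nonneg _
  have h5 : 0 ≤ ∑ i, v i ^ 2 := Finset.sum_nonneg fun _ _ => sq_nonneg _
  have h4 : (qz v z) ^ 2 ≤ (√(2 * ∑ e, z e ^ 2) * ∑ i, v i ^ 2) ^ 2 := by
    rw [mul_pow, Real.sq_sqrt (by positivity)]
    refine h2.trans ((mul_le_mul_of_nonneg_right h3 h0).trans (le_of_eq (by ring)))
  exact (abs_le_of_sq_le_sq' h4 (by positivity)).2

lemma psd_trace_nonneg {M : Matrix (Fin n) (Fin n) ℝ} (hM : Psd M) : 0 ≤ M.trace := by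
  obtain ⟨U, l, hl, hU⟩ := psd_decomp hM
  unfold Matrix.trace
  refine Finset.sum_nonneg fun i _ => ?_
  rw [Matrix.diag_apply, hU]
  refine Finset.sum_nonneg fun a _ => ?_
  have := mul_nonneg (hl a) (mul_self_nonneg (U i a))
  linarith

/-- **(F0a), the edge of the couplings against a random positive semidefinite matrix.** -/
theorem edge {M : (Pair n → ℝ) → Matrix (Fin n) (Fin n) ℝ} {K : ℝ} (hM : ∀ z, Psd (M z))
    (hE : ∀ i j, EG fun z => M z i j) (hK : ∀ z, (M z).trace ≤ K) {r : ℝ} (hr : 0 ≤ r) :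
    ∫ z, ∑ i, ∑ j, Zm z i j * M z i j ∂(gI (Pair n)) ≤
      (2 * √n + r) * ∫ z, (M z).trace ∂(gI (Pair n)) + K * n * Real.exp (-(r ^ 2 / 16)) := by
  classical
  rcases Nat.eq_zero_or_pos n with h0 | hn
  · subst h0
    simp [Matrix.trace]
  have hn' : (0 : ℝ) < n := by exact_mod_cast hn
  obtain ⟨B, hBm, hB, hBz⟩ := edge_event hn hr
  have hK0 : 0 ≤ K := (psd_trace_nonneg (hM 0)).trans (hK 0)
  set x := Real.exp (-(r ^ 2 / 16)) with hx
  have hx0 : 0 < x := Real.exp_pos _
  have hxx : Real.exp (-(r ^ 2 / 8)) = x ^ 2 := by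
    rw [hx, ← Real.exp_nat_mul]; congr 1; push_cast; ring
  set μ := x / n with hμ
  have hμ0 : 0 < μ := by positivity
  -- pointwise bound
  have hpt : ∀ z, ∑ i, ∑ j, Zm z i j * M z i j ≤ (2 * √n + r) * (M z).trace +
      K * (μ / 2 * (2 * ∑ e, z e ^ 2) + 1 / (2 * μ) * B.indicator (fun _ => (1 : ℝ)) z) := by
    intro z
    have h0 : 0 ≤ ∑ e, z e ^ 2 := Finset.sum_nonneg fun _ _ => sq_nonneg _
    have ht := psd_trace_nonneg (hM z)
    by_cases hz : z ∈ B
    · have h1 := tr_le_of_qz (hM z) (qz_le_norm z)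
      rw [Set.indicator_of_mem hz]
      set y := √(2 * ∑ e, z e ^ 2) with hy
      have hy0 : 0 ≤ y := Real.sqrt_nonneg _
      have hyy : y ^ 2 = 2 * ∑ e, z e ^ 2 := Real.sq_sqrt (by positivity)
      have h2 : y ≤ μ / 2 * y ^ 2 + 1 / (2 * μ) * 1 := by
        have h3 : 0 ≤ μ / 2 * (y - 1 / μ) ^ 2 := by positivity
        have h4 : μ / 2 * (y - 1 / μ) ^ 2 = μ / 2 * y ^ 2 + 1 / (2 * μ) * 1 - y := by
          field_simp
          ring
        linarith
      rw [← hyy]
      have h5 : y * (M z).trace ≤ y * K := mul_le_mul_of_nonneg_left (hK z) hy0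
      have h6 : y * K ≤ K * (μ / 2 * y ^ 2 + 1 / (2 * μ) * 1) := by
        rw [mul_comm y K]
        exact mul_le_mul_of_nonneg_left h2 hK0
      have h7 : 0 ≤ (2 * √n + r) * (M z).trace := by positivity
      linarith
    · have h1 := tr_le_of_qz (hM z) (hBz z hz)
      have h2 : 0 ≤ K * (μ / 2 * (2 * ∑ e, z e ^ 2) +
          1 / (2 * μ) * B.indicator (fun _ => (1 : ℝ)) z) := by
        rw [Set.indicator_of_notMem hz]
        positivity
      linarith
  -- integrability
  have hZi : ∀ i j, EG fun z : Pair n → ℝ => Zm z i j := by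
    intro i j
    unfold Zm
    by_cases h : i < j
    · simp only [dif_pos h]
      exact EG.coord _
    · by_cases h' : j < i
      · simp only [dif_neg h, dif_pos h']
        exact EG.coord _
      · simp only [dif_neg h, dif_neg h']
        exact EG.const _
  have i0 : Integrable (fun z => ∑ i, ∑ j, Zm z i j * M z i j) (gI (Pair n)) :=
    (EG.sum _ fun i _ => EG.sum _ fun j _ => (hZi i j).mul (hE i j)).integrable
  have i1 : Integrable (fun z => (M z).trace) (gI (Pair n)) :=
    (EG.sum _ fun i _ => hE i i).integrable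
  have i2 : Integrable (fun z : Pair n → ℝ => ∑ e, z e ^ 2) (gI (Pair n)) :=
    (EG.sum _ fun e _ => (EG.coord e).pow 2).integrable
  have i3 : Integrable (fun z => B.indicator (fun _ => (1 : ℝ)) z) (gI (Pair n)) :=
    (integrable_const (1 : ℝ)).indicator hBm
  have i4 : Integrable (fun z : Pair n → ℝ => μ / 2 * (2 * ∑ e, z e ^ 2)) (gI (Pair n)) :=
    (i2.const_mul 2).const_mul _
  have i5 : Integrable (fun z => 1 / (2 * μ) * B.indicator (fun _ => (1 : ℝ)) z)
      (gI (Pair n)) := i3.const_mul _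
  have i6 : Integrable (fun z : Pair n → ℝ => μ / 2 * (2 * ∑ e, z e ^ 2) +
      1 / (2 * μ) * B.indicator (fun _ => (1 : ℝ)) z) (gI (Pair n)) := i4.add i5
  have i7 : Integrable (fun z : Pair n → ℝ => K * (μ / 2 * (2 * ∑ e, z e ^ 2) +
      1 / (2 * μ) * B.indicator (fun _ => (1 : ℝ)) z)) (gI (Pair n)) := i6.const_mul K
  have i8 : Integrable (fun z => (2 * √n + r) * (M z).trace) (gI (Pair n)) := i1.const_mul _
  have hind : ∫ z, B.indicator (fun _ => (1 : ℝ)) z ∂(gI (Pair n)) = (gI (Pair n)).real B :=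
    integral_indicator_one hBm
  refine (integral_mono i0 (i8.add i7) hpt).trans ?_
  simp only [Pi.add_apply]
  rw [integral_add i8 i7, integral_const_mul,
    integral_const_mul, integral_add i4 i5, integral_const_mul, integral_const_mul,
    integral_const_mul, integral_finsetSum _ fun e _ => ((EG.coord e).pow 2).integrable, hind]
  simp only [int_sq_coord]
  have hcard : (2 : ℝ) * ∑ _e : Pair n, (1 : ℝ) ≤ n ^ 2 := by
    have h := sum_pair_le (n := n) (fun _ _ => (1 / 2 : ℝ)) fun _ _ => rfl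
    simp only [Finset.sum_const, Finset.card_univ, Fintype.card_fin, nsmul_eq_mul] at h ⊢
    nlinarith
  have h1 : μ / 2 * (2 * ∑ _e : Pair n, (1 : ℝ)) ≤ n * x / 2 := by
    refine (mul_le_mul_of_nonneg_left hcard (by positivity)).trans (le_of_eq ?_)
    rw [hμ]; field_simp
  have h2 : 1 / (2 * μ) * (gI (Pair n)).real B ≤ n * x / 2 := by
    rw [hxx] at hB
    refine (mul_le_mul_of_nonneg_left hB (by positivity)).trans (le_of_eq ?_)
    rw [hμ]; field_simp
  have h3 : K * (μ / 2 * (2 * ∑ _e : Pair n, (1 : ℝ)) + 1 / (2 * μ) * (gI (Pair n)).real B) ≤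
      K * n * x := by
    rw [mul_assoc]
    exact mul_le_mul_of_nonneg_left (by linarith) hK0
  linarith

end Vale.Agent.P146.H499
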