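import Vale.Agent.P146.H499.RepV
import Vale.Agent.P146.H522.TwoRow

/-!
The numbers of the overlap row at a regular point: all numeric hypotheses of `row_timeR` for
`J = ⌈n^c7⌉` intervals in `[1 - l, 1 - l/2]`.
-/

open MeasureTheory ProbabilityTheory Filter Topology

namespace Vale.Agent.P146.H499.RepT

open Vale.Agent.P157.Lv Vale.Agent.P146.H425 Vale.Agent.P146.H325 Vale.Agent.P146.H332
  Vale.Agent.P146.H712 Vale.Agent.P146.H816 Vale.Agent.P146.R1 Vale.Agent.P146.R1C Matrix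
  Vale.Agent.P146.R1S Vale.Agent.P146.H693 Vale.Agent.P146.H655 Vale.Agent.P146.H432
open Vale.Agent.P146.H946.En2 (pB)

set_option linter.unusedSectionVars false

/-- the number of intervals -/
noncomputable def JJn (c7 : ℝ) (n : ℕ) : ℕ := ⌈(n : ℝ) ^ c7⌉₊

lemma JJn_pos {c7 : ℝ} {n : ℕ} (hn : 0 < n) : 0 < JJn c7 n :=
  Nat.ceil_pos.2 (Real.rpow_pos_of_pos (by exact_mod_cast hn) _)

/-- a logarithm against a small power -/
lemma ev_log {a δ : ℝ} (ha : 0 < a) (hδ : 0 < δ) :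
    ∀ᶠ n : ℕ in atTop, (3 * Real.log n + 1) * (n : ℝ) ^ (-a) ≤ δ := by
  filter_upwards [ev_small (a := a / 2) (δ := δ * (a / 2) / (3 + a)) (by linarith)
    (by positivity), eventually_ge_atTop 1] with n h1 hn
  have hn' : (0 : ℝ) < n := by exact_mod_cast hn
  have hn1 : (1 : ℝ) ≤ n := by exact_mod_cast hn
  have h2 : Real.log n ≤ (n : ℝ) ^ (a / 2) / (a / 2) :=
    Real.log_le_rpow_div hn'.le (by linarith)
  have h3 : (1 : ℝ) ≤ (n : ℝ) ^ (a / 2) := Real.one_le_rpow hn1 (by linarith)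
  have h4 : 3 * Real.log n + 1 ≤ (3 + a) / (a / 2) * (n : ℝ) ^ (a / 2) := by
    have e1 : (3 + a) / (a / 2) * (n : ℝ) ^ (a / 2) =
        3 * ((n : ℝ) ^ (a / 2) / (a / 2)) + 2 * (n : ℝ) ^ (a / 2) := by
      field_simp
    rw [e1]
    linarith
  have hp : 0 < (n : ℝ) ^ (-a) := Real.rpow_pos_of_pos hn' _
  calc (3 * Real.log n + 1) * (n : ℝ) ^ (-a) ≤
        (3 + a) / (a / 2) * (n : ℝ) ^ (a / 2) * (n : ℝ) ^ (-a) :=
        mul_le_mul_of_nonneg_right h4 hp.le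
    _ = (3 + a) / (a / 2) * (n : ℝ) ^ (-(a / 2)) := by
        rw [mul_assoc, ← Real.rpow_add hn']
        congr 2
        ring
    _ ≤ (3 + a) / (a / 2) * (δ * (a / 2) / (3 + a)) :=
        mul_le_mul_of_nonneg_left h1.le (by positivity)
    _ = δ := by field_simp

/-- **The numbers of `row_timeR`.** -/
theorem rr_num {β e a w c3 c7 c8 α : ℝ} (hβ : 0 < β) (h3 : 0 ≤ c3) (hw : 0 ≤ w) (ha : 0 ≤ a)
    (h8 : 0 ≤ c8) (hα : 0 ≤ α) (h87 : α + c8 + 2 * a < c7)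
    (h6 : c3 + w + c7 + c8 + 2 * a < 6 * e) (he : e ≤ 1 / 6) :
    ∀ᶠ n : ℕ in atTop, ∀ x s l ρ Λ Nb η : ℝ, (n : ℝ) ^ (-(1 / 6) + e) ≤ x → x ≤ 1 →
      (n : ℝ) ^ (-w) * x ^ 2 ≤ s → (n : ℝ) ^ (-c3) * s ≤ l →
      2 / β * (n : ℝ) ^ (-a) * x ≤ ρ → (n : ℝ) ^ (-c8) * (n * ρ) ^ 2 ≤ Λ → 0 ≤ Nb →
      Nb ≤ (n : ℝ) ^ (2 + α) * x ^ 2 → 0 ≤ η → η ≤ (n : ℝ) ^ (-10 : ℝ) →
      0 < Λ ∧ 0 < l ∧
      Nb * (Real.exp (3 * Real.log n / JJn c7 n) - 1) + 2 * (n : ℝ) ^ 5 * η ≤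
        1 / 10 ^ 8 * Λ ∧
      (1 - 1 / 10 ^ 6) * (1 + 1 / 10 ^ 8) + 4 / (1 / 10 ^ 8 * (β / √n) ^ 2 * x ^ 2) *
        (3 * Real.log n + 1) / (Λ * (l / (2 * JJn c7 n) / 2)) ≤ 1 - 2 * (1 / 10 ^ 8) := by
  have hβ2 : 0 < β ^ 2 := by positivity
  obtain ⟨δ1, hδ1⟩ : ∃ δ1, δ1 = 1 / 10 ^ 8 / (2 * 2) * (4 / β ^ 2) := ⟨_, rfl⟩
  have hδ1' : 0 < δ1 := by rw [hδ1]; positivity
  filter_upwards [ev_log (a := c7 - (α + c8 + 2 * a)) (δ := δ1) (by linarith) hδ1',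
    ev_log (a := 6 * e - (c3 + w + c7 + c8 + 2 * a)) (δ := 1 / 10 ^ 16) (by linarith)
      (by norm_num), ev_log (a := c7) (δ := 1) (by linarith) one_pos,
    ev_small (a := 1) (δ := δ1) one_pos hδ1', eventually_ge_atTop 3]
    with n k1 k2 k3 k4 hn x s l ρ Λ Nb η hx hx1 hs hl hρ hΛ hN0 hN hη0 hη
  have hn' : (0 : ℝ) < n := by
    have : 0 < n := by omega
    exact_mod_cast this
  have hn1 : (1 : ℝ) ≤ n := by
    have : 1 ≤ n := by omega
    exact_mod_cast this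
  have pp : ∀ z : ℝ, 0 < (n : ℝ) ^ z := fun z => Real.rpow_pos_of_pos hn' _
  have hx0 : 0 < x := (pp _).trans_le hx
  have hs0 : 0 < s := lt_of_lt_of_le (mul_pos (pp _) (by positivity)) hs
  have hl0 : 0 < l := lt_of_lt_of_le (mul_pos (pp _) hs0) hl
  have hρ0 : 0 < ρ := lt_of_lt_of_le (mul_pos (mul_pos (by positivity) (pp _)) hx0) hρ
  have hlog : 0 < Real.log n := Real.log_pos (by
    have : (3 : ℝ) ≤ n := by exact_mod_cast hn
    linarith)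
  obtain ⟨J, hJ⟩ : ∃ J : ℝ, J = JJn c7 n := ⟨_, rfl⟩
  have hJ1 : (n : ℝ) ^ c7 ≤ J := by rw [hJ]; exact Nat.le_ceil _
  have hJ0 : 0 < J := (pp _).trans_le hJ1
  have hJ2 : J ≤ 2 * (n : ℝ) ^ c7 := by
    have h9 : (1 : ℝ) ≤ (n : ℝ) ^ c7 := Real.one_le_rpow hn1 (by linarith)
    have h10 : J < (n : ℝ) ^ c7 + 1 := by
      rw [hJ]
      exact Nat.ceil_lt_add_one (pp _).le
    linarith
  -- the lower bound of `Λ`
  obtain ⟨V, hV⟩ : ∃ V : ℝ, V = 4 / β ^ 2 * (n : ℝ) ^ (2 - c8 - 2 * a) * x ^ 2 := ⟨_, rfl⟩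
  have hV0 : 0 < V := by rw [hV]; have := pp (2 - c8 - 2 * a); positivity
  have hΛV : V ≤ Λ := by
    refine le_trans ?_ hΛ
    have h9 : (2 / β * (n : ℝ) ^ (-a) * x) ^ 2 ≤ ρ ^ 2 :=
      pow_le_pow_left₀ (by have := pp (-a); positivity) hρ 2
    have e1 : V = (n : ℝ) ^ (-c8) * (n : ℝ) ^ (2 : ℝ) * (2 / β * (n : ℝ) ^ (-a) * x) ^ 2 := by
      have e2 : ((n : ℝ) ^ (-a)) ^ 2 = (n : ℝ) ^ (-(2 * a)) := by
        rw [← Real.rpow_natCast, ← Real.rpow_mul hn'.le]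
        congr 1
        push_cast
        ring
      have e3 : (n : ℝ) ^ (2 - c8 - 2 * a) =
          (n : ℝ) ^ (-c8) * (n : ℝ) ^ (2 : ℝ) * (n : ℝ) ^ (-(2 * a)) := by
        rw [← Real.rpow_add hn', ← Real.rpow_add hn']
        congr 1
        ring
      rw [hV, mul_pow, mul_pow, e2, e3]
      ring
    have e4 : (n : ℝ) ^ (2 : ℝ) = (n : ℝ) ^ 2 := by
      rw [← Real.rpow_natCast]
      norm_num
    rw [e1, e4, mul_pow (n : ℝ) ρ, mul_assoc]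
    exact mul_le_mul_of_nonneg_left (mul_le_mul_of_nonneg_left h9 (by positivity)) (pp _).le
  have hΛ0 : 0 < Λ := hV0.trans_le hΛV
  refine ⟨hΛ0, hl0, ?_, ?_⟩
  · -- the growth
    rw [← hJ]
    have t1 : 3 * Real.log n / J ≤ 1 := by
      rw [div_le_one hJ0]
      have : (3 * Real.log n + 1) * (n : ℝ) ^ (-c7) ≤ 1 := k3
      have h9 : (n : ℝ) ^ (-c7) * (n : ℝ) ^ c7 = 1 := by
        rw [← Real.rpow_add hn', neg_add_cancel, Real.rpow_zero]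
      have h10 : 3 * Real.log n + 1 ≤ (n : ℝ) ^ c7 := by
        have := mul_le_mul_of_nonneg_right this (pp c7).le
        rw [mul_assoc, h9, mul_one, one_mul] at this
        exact this
      linarith
    have t0 : 0 ≤ 3 * Real.log n / J := by positivity
    have t2 : Real.exp (3 * Real.log n / J) - 1 ≤ 2 * (3 * Real.log n / J) := by
      have h9 := Real.abs_exp_sub_one_le (x := 3 * Real.log n / J) (by rw [abs_of_nonneg t0]; exact t1)
      rw [abs_of_nonneg t0] at h9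
      exact (le_abs_self _).trans h9
    have t3 : 3 * Real.log n / J ≤ (3 * Real.log n + 1) * (n : ℝ) ^ (-c7) := by
      rw [div_le_iff₀ hJ0]
      have h9 : (n : ℝ) ^ (-c7) * (n : ℝ) ^ c7 = 1 := by
        rw [← Real.rpow_add hn', neg_add_cancel, Real.rpow_zero]
      have h10 : (3 * Real.log n + 1) * (n : ℝ) ^ (-c7) * (n : ℝ) ^ c7 ≤
          (3 * Real.log n + 1) * (n : ℝ) ^ (-c7) * J :=
        mul_le_mul_of_nonneg_left hJ1 (by have := pp (-c7); positivity)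
      rw [mul_assoc (3 * Real.log n + 1), h9, mul_one] at h10
      linarith
    have t4 : Nb * (Real.exp (3 * Real.log n / J) - 1) ≤
        (n : ℝ) ^ (2 + α) * x ^ 2 * (2 * ((3 * Real.log n + 1) * (n : ℝ) ^ (-c7))) := by
      have h9 : 0 ≤ Real.exp (3 * Real.log n / J) - 1 := by
        have := Real.add_one_le_exp (3 * Real.log n / J)
        linarith
      exact mul_le_mul hN (t2.trans (by linarith)) h9 (by have := pp (2 + α); positivity)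
    have t5 : (n : ℝ) ^ (2 + α) * x ^ 2 * (2 * ((3 * Real.log n + 1) * (n : ℝ) ^ (-c7))) =
        2 * ((3 * Real.log n + 1) * (n : ℝ) ^ (-(c7 - (α + c8 + 2 * a)))) *
          ((n : ℝ) ^ (2 - c8 - 2 * a) * x ^ 2) := by
      have e1 : (n : ℝ) ^ (2 + α) * (n : ℝ) ^ (-c7) =
          (n : ℝ) ^ (-(c7 - (α + c8 + 2 * a))) * (n : ℝ) ^ (2 - c8 - 2 * a) := by
        rw [← Real.rpow_add hn', ← Real.rpow_add hn']
        congr 1
        ring
      calc _ = (n : ℝ) ^ (2 + α) * (n : ℝ) ^ (-c7) * (x ^ 2 * 2 * (3 * Real.log n + 1)) := by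
            ring
        _ = _ := by rw [e1]; ring
    have t6 : Nb * (Real.exp (3 * Real.log n / J) - 1) ≤ 1 / 10 ^ 8 / 2 * V := by
      refine t4.trans ?_
      rw [t5]
      have h9 : 0 ≤ (n : ℝ) ^ (2 - c8 - 2 * a) * x ^ 2 := by
        have := pp (2 - c8 - 2 * a); positivity
      have h10 := mul_le_mul_of_nonneg_right k1 h9
      have e2 : δ1 * ((n : ℝ) ^ (2 - c8 - 2 * a) * x ^ 2) = 1 / 10 ^ 8 / 4 * V := by
        rw [hδ1, hV]
        ring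
      rw [e2] at h10
      linarith
    have t7 : 2 * (n : ℝ) ^ 5 * η ≤ 1 / 10 ^ 8 / 2 * V := by
      have h9 : 2 * (n : ℝ) ^ 5 * η ≤ 2 * (n : ℝ) ^ 5 * (n : ℝ) ^ (-10 : ℝ) :=
        mul_le_mul_of_nonneg_left hη (by positivity)
      have h10 : (n : ℝ) ^ 5 * (n : ℝ) ^ (-10 : ℝ) = (n : ℝ) ^ (-5 : ℝ) := by
        rw [← Real.rpow_natCast, ← Real.rpow_add hn']
        norm_num
      have h11 : (n : ℝ) ^ (-5 : ℝ) ≤ (n : ℝ) ^ (-1 : ℝ) *
          ((n : ℝ) ^ (2 - c8 - 2 * a) * x ^ 2) := by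
        have h12 : ((n : ℝ) ^ (-(1 / 6) + e)) ^ 2 ≤ x ^ 2 := pow_le_pow_left₀ (pp _).le hx 2
        have h13 : ((n : ℝ) ^ (-(1 / 6) + e)) ^ 2 = (n : ℝ) ^ (2 * (-(1 / 6) + e)) := by
          rw [← Real.rpow_natCast, ← Real.rpow_mul hn'.le]
          congr 1
          push_cast
          ring
        have h14 : (n : ℝ) ^ (-5 : ℝ) ≤ (n : ℝ) ^ (-1 : ℝ) * ((n : ℝ) ^ (2 - c8 - 2 * a) *
            (n : ℝ) ^ (2 * (-(1 / 6) + e))) := by
          rw [← Real.rpow_add hn', ← Real.rpow_add hn']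
          exact Real.rpow_le_rpow_of_exponent_le hn1 (by linarith)
        rw [← h13] at h14
        exact h14.trans (mul_le_mul_of_nonneg_left (mul_le_mul_of_nonneg_left h12 (pp _).le)
          (pp _).le)
      have h15 : (n : ℝ) ^ (-1 : ℝ) * ((n : ℝ) ^ (2 - c8 - 2 * a) * x ^ 2) ≤
          δ1 * ((n : ℝ) ^ (2 - c8 - 2 * a) * x ^ 2) :=
        mul_le_mul_of_nonneg_right k4.le (by have := pp (2 - c8 - 2 * a); positivity)
      have e2 : δ1 * ((n : ℝ) ^ (2 - c8 - 2 * a) * x ^ 2) = 1 / 10 ^ 8 / 4 * V := by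
        rw [hδ1, hV]
        ring
      rw [e2] at h15
      have h16 : 2 * (n : ℝ) ^ 5 * (n : ℝ) ^ (-10 : ℝ) = 2 * (n : ℝ) ^ (-5 : ℝ) := by
        rw [← h10]; ring
      rw [h16] at h9
      linarith
    linarith
  · -- the entropy
    rw [← hJ]
    have hsq : (β / √(n : ℝ)) ^ 2 = β ^ 2 / n := by
      rw [div_pow, Real.sq_sqrt hn'.le]
    rw [hsq]
    have u1 : (n : ℝ) ^ (-c3) * ((n : ℝ) ^ (-w) * x ^ 2) ≤ l :=
      (mul_le_mul_of_nonneg_left hs (pp _).le).trans hl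
    have u2 : V * ((n : ℝ) ^ (-c3) * ((n : ℝ) ^ (-w) * x ^ 2) / (8 * (n : ℝ) ^ c7)) ≤
        Λ * (l / (2 * J) / 2) := by
      refine mul_le_mul hΛV ?_ (by have := pp (-c3); have := pp (-w); have := pp c7; positivity)
        hΛ0.le
      rw [div_div, div_le_div_iff₀ (by have := pp c7; positivity) (by positivity)]
      have h9 : (n : ℝ) ^ (-c3) * ((n : ℝ) ^ (-w) * x ^ 2) * (2 * J * 2) ≤
          l * (2 * J * 2) := mul_le_mul_of_nonneg_right u1 (by positivity)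
      have h10 : l * (2 * J * 2) ≤ l * (8 * (n : ℝ) ^ c7) :=
        mul_le_mul_of_nonneg_left (by linarith) hl0.le
      exact h9.trans h10
    obtain ⟨D, hD⟩ : ∃ D : ℝ, D = V * ((n : ℝ) ^ (-c3) * ((n : ℝ) ^ (-w) * x ^ 2) /
      (8 * (n : ℝ) ^ c7)) := ⟨_, rfl⟩
    have hD0 : 0 < D := by
      rw [hD]
      have := pp (-c3); have := pp (-w); have := pp c7
      positivity
    rw [← hD] at u2
    have u3 : 4 / (1 / 10 ^ 8 * (β ^ 2 / n) * x ^ 2) * (3 * Real.log n + 1) /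
        (Λ * (l / (2 * J) / 2)) ≤ 4 / (1 / 10 ^ 8 * (β ^ 2 / n) * x ^ 2) *
          (3 * Real.log n + 1) / D :=
      div_le_div_of_nonneg_left (by positivity) hD0 u2
    have u4 : 4 / (1 / 10 ^ 8 * (β ^ 2 / n) * x ^ 2) * (3 * Real.log n + 1) / D =
        8 * 10 ^ 8 * (3 * Real.log n + 1) * ((n : ℝ) ^ (-1 + c3 + w + c7 + c8 + 2 * a) /
          x ^ 6) := by
      have e1 : (n : ℝ) ^ (-1 + c3 + w + c7 + c8 + 2 * a) = n * (n : ℝ) ^ c7 /
          ((n : ℝ) ^ (2 - c8 - 2 * a) * (n : ℝ) ^ (-c3) * (n : ℝ) ^ (-w)) := by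
        rw [eq_div_iff (by have := pp (2 - c8 - 2 * a); have := pp (-c3); have := pp (-w)
                           positivity)]
        have e2 : (n : ℝ) * (n : ℝ) ^ c7 = (n : ℝ) ^ (1 + c7) := by
          rw [Real.rpow_add hn', Real.rpow_one]
        rw [e2, ← Real.rpow_add hn', ← Real.rpow_add hn', ← Real.rpow_add hn']
        congr 1
        ring
      rw [e1, hD, hV]
      have a1 := (pp (2 - c8 - 2 * a)).ne'
      have a2 := (pp (-c3)).ne'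
      have a3 := (pp (-w)).ne'
      have a4 := (pp c7).ne'
      field_simp
    have u5 : (n : ℝ) ^ (-1 + c3 + w + c7 + c8 + 2 * a) / x ^ 6 ≤
        (n : ℝ) ^ (-(6 * e - (c3 + w + c7 + c8 + 2 * a))) := by
      rw [div_le_iff₀ (by positivity)]
      have h12 : ((n : ℝ) ^ (-(1 / 6) + e)) ^ 6 ≤ x ^ 6 := pow_le_pow_left₀ (pp _).le hx 6
      have h13 : ((n : ℝ) ^ (-(1 / 6) + e)) ^ 6 = (n : ℝ) ^ (-1 + 6 * e) := by
        rw [← Real.rpow_natCast, ← Real.rpow_mul hn'.le]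
        congr 1
        push_cast
        ring
      rw [h13] at h12
      calc (n : ℝ) ^ (-1 + c3 + w + c7 + c8 + 2 * a) =
            (n : ℝ) ^ (-(6 * e - (c3 + w + c7 + c8 + 2 * a))) * (n : ℝ) ^ (-1 + 6 * e) := by
            rw [← Real.rpow_add hn']
            congr 1
            ring
        _ ≤ _ := mul_le_mul_of_nonneg_left h12 (pp _).le
    have u6 : 8 * 10 ^ 8 * (3 * Real.log n + 1) *
        ((n : ℝ) ^ (-1 + c3 + w + c7 + c8 + 2 * a) / x ^ 6) ≤ 8 * 10 ^ 8 * (1 / 10 ^ 16) := by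
      have h9 : 0 ≤ 8 * 10 ^ 8 * (3 * Real.log n + 1) := by positivity
      have h10 := mul_le_mul_of_nonneg_left u5 h9
      refine h10.trans ?_
      calc _ = 8 * 10 ^ 8 * ((3 * Real.log n + 1) *
            (n : ℝ) ^ (-(6 * e - (c3 + w + c7 + c8 + 2 * a)))) := by ring
        _ ≤ _ := mul_le_mul_of_nonneg_left k2 (by norm_num)
    have u7 := u3.trans ((le_of_eq u4).trans u6)
    have e9 : (1 - 1 / 10 ^ 6 : ℝ) * (1 + 1 / 10 ^ 8) + 8 * 10 ^ 8 * (1 / 10 ^ 16) ≤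
        1 - 2 * (1 / 10 ^ 8) := by norm_num
    linarith

/-- **The overlap row at a regular point.** `J = ⌈n^c7⌉` intervals `[1 - l + i h, 1 - l + (i+1) h]`
of length `h = l / (2 J)`, each with a grid of `M` steps and a prescribed good set `G i` of at
least `M / 2` grid times; at some good time `t` the overlap row holds with the relative error
`10^-6`. -/
theorem rr_reg {β e a w c3 c7 c8 α : ℝ} (hβ : 0 < β) (h3 : 0 ≤ c3) (hw : 0 ≤ w) (ha : 0 ≤ a)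
    (h8 : 0 ≤ c8) (hα : 0 ≤ α) (h87 : α + c8 + 2 * a < c7)
    (h6 : c3 + w + c7 + c8 + 2 * a < 6 * e) (he : e ≤ 1 / 6) :
    ∀ᶠ n : ℕ in atTop, ∀ x s l ρ Λ Nb η : ℝ, (n : ℝ) ^ (-(1 / 6) + e) ≤ x →
      (n : ℝ) ^ (-w) * x ^ 2 ≤ s → (n : ℝ) ^ (-c3) * s ≤ l →
      2 / β * (n : ℝ) ^ (-a) * x ≤ ρ → (n : ℝ) ^ (-c8) * (n * ρ) ^ 2 ≤ Λ → 0 ≤ Nb →
      Nb ≤ (n : ℝ) ^ (2 + α) * x ^ 2 → 0 ≤ η → η ≤ (n : ℝ) ^ (-10 : ℝ) →
      ∀ (hk : 0 < β / √n) (hx : 0 < x) (hx1 : x ≤ 1) (w' : ℝ) (m σ' : ℕ → ℝ) (N : ℕ) (c : ℝ)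
        (M : ℕ) (G : ℕ → Finset ℕ), Pm m N → w' ≤ 1 - l → 0 < M →
      4 * (x * St.Lc (Pair n) x (skCS n hk hx hx1).bB (skCS n hk hx hx1).bL *
        (l / (2 * JJn c7 n) / M)) ≤ 1 →
      (∀ i < JJn c7 n, G i ⊆ Finset.range M ∧ (M : ℝ) / 2 ≤ (G i).card) →
      (∀ i < JJn c7 n, ∀ j ∈ G i, pB (skCS n hk hx hx1) w' m σ' N c Nb
        (1 - l + i * (l / (2 * JJn c7 n)) + j * (l / (2 * JJn c7 n) / M)) ≤ η) →
      (∀ i < JJn c7 n, ∀ j ∈ G i, Λ * BB (skCS n hk hx hx1) w' m σ' N c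
          (1 - l + i * (l / (2 * JJn c7 n))) ≤
        MM (skCS n hk hx hx1) w' m σ' N c (1 - l + i * (l / (2 * JJn c7 n)))
          (1 - l + i * (l / (2 * JJn c7 n)) + j * (l / (2 * JJn c7 n) / M))) →
      ∃ i < JJn c7 n, ∃ j ∈ G i, ∀ t : ℝ,
        t = 1 - l + i * (l / (2 * JJn c7 n)) + j * (l / (2 * JJn c7 n) / M) →
        (1 - 1 / 10 ^ 6) * MM (skCS n hk hx hx1) w' m σ' N c t t ≤
          RT (skCS n hk hx hx1) w' m σ' N c t t := by
  filter_upwards [rr_num hβ h3 hw ha h8 hα h87 h6 he, eventually_ge_atTop 1]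
    with n h1 hn x s l ρ Λ Nb η hx hs hl hρ hΛ hN0 hN hη0 hη hk hx0 hx1 w' m σ' N c M G hm hw'
      hM hLc hG hpB hlow
  obtain ⟨a1, a2, a3, a4⟩ := h1 x s l ρ Λ Nb η hx hx1 hs hl hρ hΛ hN0 hN hη0 hη
  have hn0 : 0 < n := hn
  have hn' : (0 : ℝ) < n := by exact_mod_cast hn0
  have hn1 : (1 : ℝ) ≤ n := by exact_mod_cast hn
  obtain ⟨J, hJ⟩ : ∃ J, JJn c7 n = J := ⟨_, rfl⟩
  have hJ0 : 0 < J := by rw [← hJ]; exact JJn_pos hn0
  have hJr : (0 : ℝ) < J := by exact_mod_cast hJ0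
  rw [hJ] at hLc hG hpB hlow a3 a4 ⊢
  have hM' : (0 : ℝ) < M := by exact_mod_cast hM
  obtain ⟨h, hh⟩ : ∃ h, h = l / (2 * J) := ⟨_, rfl⟩
  have hh0 : 0 < h := by rw [hh]; positivity
  have hJh : (J : ℝ) * h = l / 2 := by rw [hh]; field_simp
  rw [← hh] at hLc hpB hlow a4 ⊢
  have hlog : 0 ≤ Real.log n := Real.log_nonneg hn1
  have hiJ : ∀ i : ℕ, i < J → 1 - l + i * h + M * (h / M) ≤ 1 := by
    intro i hi
    have h2 : (i : ℝ) + 1 ≤ J := by exact_mod_cast hi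
    have h3 := mul_le_mul_of_nonneg_right h2 hh0.le
    have h4 : (M : ℝ) * (h / M) = h := by field_simp
    rw [h4]
    nlinarith
  have hδ : 0 < h / M := by positivity
  obtain ⟨i, hi, j, hj, hfin⟩ := row_timeR (S := skCS n hk hx0 hx1) (w := w') (m := m)
    (σ := σ') (N := N) (T0 := 1 - l) (h := h) (J := J) (M := M) (G := G) (δ := h / M)
    (κ := 1 - 2 * (1 / 10 ^ 8)) (c0 := 4 / (1 / 10 ^ 8 * (β / √n) ^ 2 * x ^ 2))
    (L := 3 * Real.log n) (Θ := h / 2) (q := Real.exp (3 * Real.log n / J)) (Λ := Λ) (Nb := Nb)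
    (η := η) (e := 1 / 10 ^ 6) (ε := 1 / 10 ^ 8) hm hn0 hw' hJ0 hh0.le
    (by rw [hJh]; linarith) hδ (le_of_eq (by field_simp)) (fun i hi => (hG i hi).1)
    (by positivity) (fun i hi => by
      have h2 := (hG i hi).2
      have h3 := mul_le_mul_of_nonneg_left h2 hδ.le
      refine le_trans (le_of_eq ?_) h3
      field_simp)
    (fun i hi => row_sk hk hx0 hx1 hδ (by norm_num) hLc (hiJ i hi) (hG i hi).1 _)
    (by positivity) (by positivity) (by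
      have h2 : Real.exp (-(3 * Real.log n)) = ((n : ℝ) ^ 3)⁻¹ := by
        rw [Real.exp_neg, mul_comm, Real.exp_mul, Real.exp_log hn']
        norm_num
      rw [h2, mul_inv_cancel₀ (by positivity)])
    c (Real.exp_pos _) (by
      rw [← Real.exp_nat_mul]
      have h2 : (J : ℝ) * (3 * Real.log n / J) = 3 * Real.log n := by field_simp
      rw [h2, mul_comm, Real.exp_mul, Real.exp_log hn']
      norm_num)
    a1 hN0 (by norm_num) (by norm_num) hpB hη0 a3 a4 hlow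
  exact ⟨i, hi, j, hj, fun t ht => by rw [ht]; exact hfin⟩

end Vale.Agent.P146.H499.RepT
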