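import Vale.Agent.P146.H655.PigD
import Vale.Agent.P146.H765.F0K

/-!
Row (A3), leaf (3c): the overlap row for a fixed weight `Y` at the start of an interval gives the
overlap row for the weight `Y = Q_1(t)` at some late time `t` of a set of good times.
-/

open MeasureTheory ProbabilityTheory

namespace Vale.Agent.P146.H499.RepT

open Vale.Agent.P157.Lv Vale.Agent.P146.H425 Vale.Agent.P146.H325 Vale.Agent.P146.H332
  Vale.Agent.P146.H712 Vale.Agent.P146.H816 Vale.Agent.P146.R1 Vale.Agent.P146.R1C Matrix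
  Vale.Agent.P146.R1S Vale.Agent.P146.H693 Vale.Agent.P146.H655
open Vale.Agent.P146.H785 (Ax)
open Vale.Agent.P146.H765 (qs qs_nonneg)

set_option linter.unusedSectionVars false

variable {n : ℕ} {k x : ℝ}

/-! ### the functionals -/

/-- `tr (M A_t)` -/
def tA (S : CS n k x) (t : ℝ) (M : Matrix (Fin n) (Fin n) ℝ) (u : Pair n → ℝ) : ℝ :=
  ∑ i, ∑ j, M i j * S.A t u i j

/-- `tr (M A_t) |A_t|²` -/
def tAf (S : CS n k x) (t : ℝ) (M : Matrix (Fin n) (Fin n) ℝ) (u : Pair n → ℝ) : ℝ :=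
  tA S t M u * fr (S.A t u)

/-- the mean of `(σ' M σ) (σ' A_t σ)` under the root law -/
def rr (S : CS n k x) (t : ℝ) (M : Matrix (Fin n) (Fin n) ℝ) (u : Pair n → ℝ) : ℝ :=
  ∑ σ, S.mu t u σ * (qs M σ * qs (S.A t u) σ)

/-- the entries of `tAf` -/
def fE (S : CS n k x) (t : ℝ) (i j : Fin n) (u : Pair n → ℝ) : ℝ := S.A t u i j * fr (S.A t u)

/-- the entries of `rr` -/
def rE (S : CS n k x) (t : ℝ) (i j : Fin n) (u : Pair n → ℝ) : ℝ :=
  ∑ σ, pr i j σ * (S.mu t u σ * qs (S.A t u) σ)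

variable {S : CS n k x} {w t t' : ℝ} {m σ : ℕ → ℝ} {N : ℕ}

lemma tAf_eq (t : ℝ) (M : Matrix (Fin n) (Fin n) ℝ) (u : Pair n → ℝ) :
    tAf S t M u = ∑ i, ∑ j, M i j * fE S t i j u := by
  unfold tAf tA fE
  rw [Finset.sum_mul]
  refine Finset.sum_congr rfl fun i _ => ?_
  rw [Finset.sum_mul]
  exact Finset.sum_congr rfl fun j _ => by ring

lemma rr_eq (t : ℝ) (M : Matrix (Fin n) (Fin n) ℝ) (u : Pair n → ℝ) :
    rr S t M u = ∑ i, ∑ j, M i j * rE S t i j u := by
  unfold rr rE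
  have e2 : ∀ τ, S.mu t u τ * (qs M τ * qs (S.A t u) τ) =
      ∑ i, ∑ j, M i j * (pr i j τ * (S.mu t u τ * qs (S.A t u) τ)) := by
    intro τ
    have : qs M τ = ∑ i, ∑ j, M i j * pr i j τ := rfl
    rw [this, Finset.sum_mul, Finset.mul_sum]
    refine Finset.sum_congr rfl fun i _ => ?_
    rw [Finset.sum_mul, Finset.mul_sum]
    exact Finset.sum_congr rfl fun j _ => by ring
  simp only [e2]
  rw [Finset.sum_comm]
  refine Finset.sum_congr rfl fun i _ => ?_
  rw [Finset.sum_comm]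
  exact Finset.sum_congr rfl fun j _ => (Finset.mul_sum _ _ _).symm

lemma eg_fr (t : ℝ) : EG fun u : Pair n → ℝ => fr (S.A t u) :=
  EG.sum _ fun i _ => EG.sum _ fun j _ => (S.eg_A t i j).pow 2

lemma eg_fE (t : ℝ) (i j : Fin n) : EG (fE S t i j) := (S.eg_A t i j).mul (eg_fr t)

lemma eg_rE (t : ℝ) (i j : Fin n) : EG (rE S t i j) :=
  EG.sum _ fun τ _ => ((S.eg_mu t τ).mul (H765.eg_qs t τ)).const_mul _

lemma eg_tA (t : ℝ) (M : Matrix (Fin n) (Fin n) ℝ) : EG (tA S t M) :=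
  EG.sum _ fun i _ => EG.sum _ fun j _ => (S.eg_A t i j).const_mul _

lemma eg_tAf (t : ℝ) (M : Matrix (Fin n) (Fin n) ℝ) : EG (tAf S t M) := (eg_tA t M).mul (eg_fr t)

lemma eg_rr (t : ℝ) (M : Matrix (Fin n) (Fin n) ℝ) : EG (rr S t M) := by
  rw [show rr S t M = fun u => ∑ i, ∑ j, M i j * rE S t i j u from funext fun u => rr_eq t M u]
  exact EG.sum _ fun i _ => EG.sum _ fun j _ => (eg_rE t i j).const_mul _

/-- the overlap functional is monotone in the weight -/
lemma rr_mono {M M' : Matrix (Fin n) (Fin n) ℝ} (h : Psd (M' - M)) (t : ℝ) (u : Pair n → ℝ) :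
    rr S t M u ≤ rr S t M' u := by
  unfold rr
  refine Finset.sum_le_sum fun τ _ => mul_le_mul_of_nonneg_left ?_ (S.mu0 t u τ)
  refine mul_le_mul_of_nonneg_right ?_ (qs_nonneg (S.psd_A t u) τ)
  have h1 := qs_nonneg h τ
  have h2 : qs (M' - M) τ = qs M' τ - qs M τ := by
    unfold qs
    rw [← Finset.sum_sub_distrib]
    refine Finset.sum_congr rfl fun i _ => ?_
    rw [← Finset.sum_sub_distrib]
    exact Finset.sum_congr rfl fun j _ => by rw [Matrix.sub_apply]; ring
  linarith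

/-! ### the mean of the matrix -/

/-- the matrix at the base of the window, averaged over the lower layers -/
noncomputable def Cb (S : CS n k x) (w : ℝ) (m σ : ℕ → ℝ) (N : ℕ) (z : Pair n → ℝ) :
    Matrix (Fin n) (Fin n) ℝ := fun i j => Tl S w m σ (fun u => S.A w u i j) N z

lemma E1_A (h1 : w ≤ t) (h2 : t ≤ 1) (i j : Fin n) (z : Pair n → ℝ) :
    E1 S w m σ N t (fun u => S.A t u i j) z = Cb S w m σ N z i j := by
  have h : Aw S w t (fun u => S.A t u i j) = fun u => S.A w u i j :=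
    funext fun u => (A_tw S h1 h2 u i j).symm
  unfold E1 Cb
  rw [h]

lemma E1_tA (hm : Pm m N) (h1 : w ≤ t) (h2 : t ≤ 1) (M : Matrix (Fin n) (Fin n) ℝ)
    (z : Pair n → ℝ) :
    E1 S w m σ N t (tA S t M) z = ∑ i, ∑ j, M i j * Cb S w m σ N z i j := by
  refine (E1_sum2 (S := S) (w := w) (σ := σ) hm M (f := fun i j u => S.A t u i j)
    (fun i j => S.eg_A t i j) z).trans ?_
  exact Finset.sum_congr rfl fun i _ => Finset.sum_congr rfl fun j _ => by
    rw [E1_A h1 h2]

/-- `A² ≤ n A` -/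
lemma A2_le (t : ℝ) (u : Pair n → ℝ) (c : Fin n → ℝ) :
    ∑ i, ∑ j, c i * c j * A2 S t i j u ≤ n * ∑ i, ∑ j, c i * c j * S.A t u i j := by
  have e1 : ∑ i, ∑ j, c i * c j * A2 S t i j u = ∑ l, (∑ i, c i * S.A t u i l) ^ 2 := by
    have h : ∀ l, (∑ i, c i * S.A t u i l) ^ 2 =
        ∑ i, ∑ j, c i * c j * (S.A t u i l * S.A t u l j) := by
      intro l
      rw [_root_.sq, Finset.sum_mul_sum]
      refine Finset.sum_congr rfl fun i _ => Finset.sum_congr rfl fun j _ => ?_
      rw [S.A_comm t u l j]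
      ring
    simp only [h]
    unfold H693.A2
    simp only [Finset.mul_sum]
    rw [Finset.sum_comm]
    conv_rhs => rw [Finset.sum_comm]
    rw [Finset.sum_comm]
    refine Finset.sum_congr rfl fun i _ => ?_
    rw [Finset.sum_comm]
  have e2 : ∀ l, (∑ i, c i * S.A t u i l) ^ 2 ≤ ∑ i, ∑ j, c i * c j * S.A t u i j := by
    intro l
    have h1 : ∑ i, c i * S.A t u i l = ∑ τ, S.mu t u τ * ∑ i, c i * pr i l τ := by
      simp only [S.A_mu, Finset.mul_sum]
      rw [Finset.sum_comm]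
      exact Finset.sum_congr rfl fun τ _ => Finset.sum_congr rfl fun i _ => by ring
    have h2 : ∑ i, ∑ j, c i * c j * S.A t u i j =
        ∑ τ, S.mu t u τ * (∑ i, c i * pr i l τ) ^ 2 := by
      have h3 : ∀ τ, (∑ i, c i * pr i l τ) ^ 2 = ∑ i, ∑ j, c i * c j * pr i j τ := by
        intro τ
        rw [_root_.sq, Finset.sum_mul_sum]
        refine Finset.sum_congr rfl fun i _ => Finset.sum_congr rfl fun j _ => ?_
        have h4 : pr i l τ * pr j l τ = pr i j τ := by
          unfold pr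
          have h5 : H325.sp τ l * H325.sp τ l = 1 := by
            have h6 := congrFun (pr_self l) τ
            unfold pr at h6
            exact h6
          calc H325.sp τ i * H325.sp τ l * (H325.sp τ j * H325.sp τ l) =
              H325.sp τ i * H325.sp τ j * (H325.sp τ l * H325.sp τ l) := by ring
            _ = _ := by rw [h5, mul_one]
        calc c i * pr i l τ * (c j * pr j l τ) = c i * c j * (pr i l τ * pr j l τ) := by ring
          _ = _ := by rw [h4]
      simp only [h3, S.A_mu, Finset.mul_sum]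
      rw [Finset.sum_comm]
      have : ∀ j : Fin n, ∑ i, ∑ τ, c i * c j * (S.mu t u τ * pr i j τ) =
          ∑ τ, ∑ i, c i * c j * (S.mu t u τ * pr i j τ) := fun j => Finset.sum_comm
      simp only [this]
      rw [Finset.sum_comm]
      refine Finset.sum_congr rfl fun τ _ => ?_
      rw [Finset.sum_comm]
      exact Finset.sum_congr rfl fun i _ => Finset.sum_congr rfl fun j _ => by ring
    rw [h1, h2]
    exact S.mu_sq_le t u fun τ => ∑ i, c i * pr i l τ
  rw [e1]
  refine (Finset.sum_le_sum fun l _ => e2 l).trans ?_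
  rw [Finset.sum_const, Finset.card_univ, Fintype.card_fin, nsmul_eq_mul]

lemma Cb_comm (z : Pair n → ℝ) (i j : Fin n) :
    Cb S w m σ N z i j = Cb S w m σ N z j i := by
  have h : (fun u : Pair n → ℝ => S.A w u i j) = fun u => S.A w u j i :=
    funext fun u => S.A_comm w u i j
  unfold Cb
  rw [h]

/-- `Q_1 ≤ n C_1` -/
theorem nC_psd (hm : Pm m N) (h1 : w ≤ t) (h2 : t ≤ 1) (z : Pair n → ℝ) :
    Psd (Matrix.of (fun i j => (n : ℝ) * Cb S w m σ N z i j) - Q1 S w m σ N t z) := by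
  refine ⟨?_, fun c => ?_⟩
  · ext i j
    rw [transpose_apply, Matrix.sub_apply, Matrix.sub_apply, Matrix.of_apply, Matrix.of_apply,
      Q1_comm t z j i, Cb_comm z j i]
  · have e1 : E1 S w m σ N t (fun u => ∑ i, ∑ j, c i * c j * A2 S t i j u) z =
        ∑ i, ∑ j, c i * c j * Q1 S w m σ N t z i j :=
      E1_sum2 (S := S) (w := w) (σ := σ) hm (fun i j => c i * c j) (f := fun i j => A2 S t i j)
        (fun i j => eg_A2 S t i j) z
    have e2 : E1 S w m σ N t (fun u => n * ∑ i, ∑ j, c i * c j * S.A t u i j) z =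
        n * ∑ i, ∑ j, c i * c j * Cb S w m σ N z i j := by
      rw [E1_const_mul]
      congr 1
      refine (E1_sum2 (S := S) (w := w) (σ := σ) hm (fun i j => c i * c j)
        (f := fun i j u => S.A t u i j) (fun i j => S.eg_A t i j) z).trans ?_
      exact Finset.sum_congr rfl fun i _ => Finset.sum_congr rfl fun j _ => by rw [E1_A h1 h2]
    have h3 := E1_mono (S := S) (w := w) (t := t) (σ := σ) hm
      (EG.sum Finset.univ fun i _ => EG.sum Finset.univ fun j _ =>
        (eg_A2 S t i j).const_mul (c i * c j))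
      ((EG.sum Finset.univ fun i _ => EG.sum Finset.univ fun j _ =>
        (S.eg_A t i j).const_mul (c i * c j)).const_mul (n : ℝ)) (A2_le t · c) z
    rw [e1, e2] at h3
    have e3 : ∑ i, ∑ j, c i * c j * (Matrix.of (fun i j => (n : ℝ) * Cb S w m σ N z i j) -
        Q1 S w m σ N t z) i j = n * ∑ i, ∑ j, c i * c j * Cb S w m σ N z i j -
          ∑ i, ∑ j, c i * c j * Q1 S w m σ N t z i j := by
      rw [Finset.mul_sum, ← Finset.sum_sub_distrib]
      refine Finset.sum_congr rfl fun i _ => ?_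
      rw [Finset.mul_sum, ← Finset.sum_sub_distrib]
      refine Finset.sum_congr rfl fun j _ => ?_
      rw [Matrix.sub_apply, Matrix.of_apply]
      ring
    rw [e3]
    linarith

/-- `C_1` is psd -/
theorem Cb_psd (hm : Pm m N) (z : Pair n → ℝ) : Psd (Cb S w m σ N z) := by
  refine ⟨?_, fun c => ?_⟩
  · ext i j
    rw [transpose_apply]
    exact Cb_comm z j i
  · have e1 : Tl S w m σ (fun u => ∑ i, ∑ j, c i * c j * S.A w u i j) N z =
        ∑ i, ∑ j, c i * c j * Cb S w m σ N z i j := by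
      unfold Tl
      rw [TP_sum hU _ (fun i _ => EG.sum _ fun j _ => (S.eg_A w i j).const_mul _) N hm]
      refine Finset.sum_congr rfl fun i _ => ?_
      rw [TP_sum hU _ (fun j _ => (S.eg_A w i j).const_mul _) N hm]
      refine Finset.sum_congr rfl fun j _ => ?_
      rw [TD_const_mul]
      rfl
    rw [← e1]
    exact TP_nonneg (fun u => (S.psd_A w u).2 c) N z

/-- `tr (Q_1(t) C_1)` -/
noncomputable def aC (S : CS n k x) (w : ℝ) (m σ : ℕ → ℝ) (N : ℕ) (t : ℝ)
    (z : Pair n → ℝ) : ℝ := ∑ i, ∑ j, Q1 S w m σ N t z i j * Cb S w m σ N z i j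

lemma eg_Cb (hm : Pm m N) (i j : Fin n) : EG fun z => Cb S w m σ N z i j :=
  eg_Tl (S.eg_A w i j) N hm

lemma eg_aC (hm : Pm m N) : EG (aC S w m σ N t) :=
  EG.sum _ fun i _ => EG.sum _ fun j _ => (eg_Q1 hm i j).mul (eg_Cb hm i j)

/-- `fr Q_1 ≤ n tr (Q_1 C_1)` -/
lemma fr_le_aC (hm : Pm m N) (h1 : w ≤ t) (h2 : t ≤ 1) (z : Pair n → ℝ) :
    fr (Q1 S w m σ N t z) ≤ n * aC S w m σ N t z := by
  have h := (Q1_psd (S := S) (w := w) (t := t) (σ := σ) hm z).sum_mul_nonneg
    (nC_psd (S := S) (σ := σ) hm h1 h2 z)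
  have e : ∑ i, ∑ j, Q1 S w m σ N t z i j * (Matrix.of (fun i j => (n : ℝ) *
      Cb S w m σ N z i j) - Q1 S w m σ N t z) i j =
      n * aC S w m σ N t z - fr (Q1 S w m σ N t z) := by
    unfold aC fr
    rw [Finset.mul_sum, ← Finset.sum_sub_distrib]
    refine Finset.sum_congr rfl fun i _ => ?_
    rw [Finset.mul_sum, ← Finset.sum_sub_distrib]
    refine Finset.sum_congr rfl fun j _ => ?_
    rw [Matrix.sub_apply, Matrix.of_apply]
    ring
  rw [e] at h
  linarith

lemma aC_ge (hm : Pm m N) (hn : 0 < n) (h1 : w ≤ t) (h2 : t ≤ 1) (z : Pair n → ℝ) :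
    1 ≤ aC S w m σ N t z := by
  have h3 := fr_le_aC (S := S) (σ := σ) hm h1 h2 z
  have h4 := fr_Q1_ge (S := S) (w := w) (t := t) (σ := σ) hm z
  have hn0 : (0 : ℝ) < n := by exact_mod_cast hn
  by_contra hcon
  push Not at hcon
  nlinarith

lemma abs_Cb (hm : Pm m N) (z : Pair n → ℝ) (i j : Fin n) : |Cb S w m σ N z i j| ≤ 1 :=
  abs_Tl (S.eg_A w i j) (fun u => S.abs_A w u i j) N hm z

lemma aC_le (hm : Pm m N) (z : Pair n → ℝ) : aC S w m σ N t z ≤ (n : ℝ) ^ 3 := by
  unfold aC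
  have h : ∀ i j, Q1 S w m σ N t z i j * Cb S w m σ N z i j ≤ n := by
    intro i j
    refine (le_abs_self _).trans ?_
    rw [abs_mul]
    calc _ ≤ (n : ℝ) * 1 := mul_le_mul (abs_Q1 hm z i j) (abs_Cb hm z i j) (abs_nonneg _)
          (Nat.cast_nonneg n)
      _ = n := mul_one _
  refine (Finset.sum_le_sum fun i _ => Finset.sum_le_sum fun j _ => h i j).trans ?_
  simp only [Finset.sum_const, Finset.card_univ, Fintype.card_fin, nsmul_eq_mul]
  exact le_of_eq (by ring)

lemma aC_mono (hm : Pm m N) (h1 : w ≤ t) (h2 : t ≤ t') (h3 : t' ≤ 1) (z : Pair n → ℝ) :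
    aC S w m σ N t z ≤ aC S w m σ N t' z := by
  have h := (Q1_inc (S := S) (σ := σ) hm h1 h2 h3 z).sum_mul_nonneg
    (Cb_psd (S := S) (w := w) (σ := σ) hm z)
  have e : ∑ i, ∑ j, (Q1 S w m σ N t' z - Q1 S w m σ N t z) i j * Cb S w m σ N z i j =
      aC S w m σ N t' z - aC S w m σ N t z := by
    unfold aC
    rw [← Finset.sum_sub_distrib]
    refine Finset.sum_congr rfl fun i _ => ?_
    rw [← Finset.sum_sub_distrib]
    exact Finset.sum_congr rfl fun j _ => by rw [Matrix.sub_apply]; ring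
  rw [e] at h
  linarith

/-- the form of a configuration is at most `n |M|` -/
lemma qs_le (M : Matrix (Fin n) (Fin n) ℝ) (τ : Fin n → ℤˣ) : qs M τ ≤ n * √(fr M) := by
  have h1 : qs M τ ^ 2 ≤ ((n : ℝ) * √(fr M)) ^ 2 := by
    rw [mul_pow, Real.sq_sqrt (H332.fr_nonneg M)]
    have h2 : qs M τ = ∑ p : Fin n × Fin n, M p.1 p.2 * pr p.1 p.2 τ := by
      rw [Fintype.sum_prod_type]
      rfl
    have h3 : fr M = ∑ p : Fin n × Fin n, M p.1 p.2 ^ 2 := by
      rw [Fintype.sum_prod_type]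
      rfl
    have h4 := Finset.sum_mul_sq_le_sq_mul_sq (Finset.univ : Finset (Fin n × Fin n))
      (fun p => M p.1 p.2) (fun p => pr p.1 p.2 τ)
    have h5 : ∑ p : Fin n × Fin n, pr p.1 p.2 τ ^ 2 = (n : ℝ) ^ 2 := by
      have h6 : ∀ p : Fin n × Fin n, pr p.1 p.2 τ ^ 2 = 1 := fun p => by
        rw [← sq_abs, abs_pr, one_pow]
      simp only [h6, Finset.sum_const, Finset.card_univ, Fintype.card_prod, Fintype.card_fin,
        nsmul_eq_mul, mul_one, Nat.cast_mul]
      ring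
    rw [h5, ← h2, ← h3] at h4
    linarith
  exact (le_abs_self _).trans (abs_le_of_sq_le_sq h1 (by positivity))

end Vale.Agent.P146.H499.RepT
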