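import Vale.Agent.P146.H499.RepT
import Vale.Agent.P146.H325.RepH
import Vale.Agent.P146.H655.Pig

/-!
Row (A3), leaf (3c): the overlap row in the weight `Y = Q_1(t)` of the same time, at a time of a
prescribed dense set of good times.
-/

open MeasureTheory ProbabilityTheory

namespace Vale.Agent.P146.H499.RepT

open Vale.Agent.P157.Lv Vale.Agent.P146.H425 Vale.Agent.P146.H325 Vale.Agent.P146.H332
  Vale.Agent.P146.H712 Vale.Agent.P146.H816 Vale.Agent.P146.R1 Vale.Agent.P146.R1C Matrix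
  Vale.Agent.P146.R1S Vale.Agent.P146.H693 Vale.Agent.P146.H655
open Vale.Agent.P146.H785 (Ax)
open Vale.Agent.P146.H765 (qs qs_nonneg)

set_option linter.unusedSectionVars false

variable {n : ℕ} {k x : ℝ} {S : CS n k x} {w t t' τ δ κ c0 L c : ℝ} {m σ : ℕ → ℝ} {N : ℕ}
  {G : Finset ℕ}

/-- the overlap row for frozen weights over the grid times `τ + j δ`, `j ∈ G` -/
def Row (S : CS n k x) (τ δ κ c0 L : ℝ) (G : Finset ℕ) : Prop :=
  ∀ Y : Matrix (Fin n) (Fin n) ℝ, Psd Y → ∀ z : Pair n → ℝ,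
    κ * ∑ j ∈ G, δ * Aw S τ (τ + j * δ) (tAf S (τ + j * δ) Y) z ≤
      (∑ j ∈ G, δ * Aw S τ (τ + j * δ) (rr S (τ + j * δ) Y) z) +
        c0 * (L * tA S τ Y z + n * (∑ i, Y i i) * Real.exp (-L))

/-- the row for the SK model, `H325.St.rep_csG` -/
theorem row_sk (hk : 0 < k) (hx : 0 < x) (hx1 : x ≤ 1) (hδ : 0 < δ) {η : ℝ} (hη : 0 < η)
    (hL : 4 * (x * St.Lc (Pair n) x (skCS n hk hx hx1).bB (skCS n hk hx hx1).bL * δ) ≤ 1)
    {M : ℕ} (ht : τ + M * δ ≤ 1) (hG : G ⊆ Finset.range M) (L : ℝ) :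
    Row (skCS n hk hx hx1) τ δ (1 - 2 * η) (4 / (η * k ^ 2 * x ^ 2)) L G := by
  intro Y hY z
  have h := St.rep_csG (t := τ) hk hx hx1 hY hδ.le hη hL hG ht z L
  have e : ∀ (j : ℕ) (φ : (Pair n → ℝ) → ℝ), Aw (skCS n hk hx hx1) τ (τ + j * δ) φ z =
      Ax x (√(j * δ)) (uu x (τ + j * δ) (skCS n hk hx hx1).F) φ z := by
    intro j φ
    unfold Aw
    rw [add_sub_cancel_left]
  unfold St.SG at h
  simp only [e]
  exact h

lemma E1_tAf (hm : Pm m N) (M : Matrix (Fin n) (Fin n) ℝ) (z : Pair n → ℝ) :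
    E1 S w m σ N t (tAf S t M) z = ∑ i, ∑ j, M i j * E1 S w m σ N t (fE S t i j) z := by
  rw [show tAf S t M = fun u => ∑ i, ∑ j, M i j * fE S t i j u from
    funext fun u => tAf_eq t M u]
  exact E1_sum2 hm M (fun i j => eg_fE t i j) z

lemma E1_rr (hm : Pm m N) (M : Matrix (Fin n) (Fin n) ℝ) (z : Pair n → ℝ) :
    E1 S w m σ N t (rr S t M) z = ∑ i, ∑ j, M i j * E1 S w m σ N t (rE S t i j) z := by
  rw [show rr S t M = fun u => ∑ i, ∑ j, M i j * rE S t i j u from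
    funext fun u => rr_eq t M u]
  exact E1_sum2 hm M (fun i j => eg_rE t i j) z

/-- the row, averaged over the lower layers -/
theorem row_E1 (hr : Row S τ δ κ c0 L G) (hm : Pm m N) (h1 : w ≤ τ) (hδ : 0 ≤ δ)
    (h3 : ∀ j ∈ G, τ + j * δ ≤ 1) (hτ : τ ≤ 1) {Y : Matrix (Fin n) (Fin n) ℝ} (hY : Psd Y)
    (z : Pair n → ℝ) :
    κ * ∑ j ∈ G, δ * E1 S w m σ N (τ + j * δ) (tAf S (τ + j * δ) Y) z ≤
      (∑ j ∈ G, δ * E1 S w m σ N (τ + j * δ) (rr S (τ + j * δ) Y) z) +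
        c0 * (L * (∑ i, ∑ j, Y i j * Cb S w m σ N z i j) +
          n * (∑ i, Y i i) * Real.exp (-L)) := by
  have hjδ : ∀ j : ℕ, τ ≤ τ + j * δ := fun j => by
    have : 0 ≤ (j : ℝ) * δ := mul_nonneg (Nat.cast_nonneg _) hδ
    linarith
  have eF : ∀ j : ℕ, EG fun u => δ * Aw S τ (τ + j * δ) (tAf S (τ + j * δ) Y) u := fun j =>
    (eg_Aw S _ _ (eg_tAf _ Y)).const_mul _
  have eR : ∀ j : ℕ, EG fun u => δ * Aw S τ (τ + j * δ) (rr S (τ + j * δ) Y) u := fun j =>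
    (eg_Aw S _ _ (eg_rr _ Y)).const_mul _
  have eC : EG fun u => c0 * (L * tA S τ Y u + n * (∑ i, Y i i) * Real.exp (-L)) :=
    (((eg_tA τ Y).const_mul L).add (EG.const _)).const_mul _
  have h := E1_mono (S := S) (w := w) (t := τ) (σ := σ) hm
    ((EG.sum G fun j _ => eF j).const_mul κ) ((EG.sum G fun j _ => eR j).add eC) (hr Y hY) z
  have a1 : E1 S w m σ N τ (fun u => κ * ∑ j ∈ G, δ * Aw S τ (τ + j * δ)
      (tAf S (τ + j * δ) Y) u) z =
      κ * ∑ j ∈ G, δ * E1 S w m σ N (τ + j * δ) (tAf S (τ + j * δ) Y) z := by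
    rw [E1_const_mul, E1_sum hm G (fun j _ => eF j)]
    congr 1
    refine Finset.sum_congr rfl fun j hj => ?_
    rw [E1_const_mul, E1_tower h1 (hjδ j) (h3 j hj) (eg_tAf _ Y)]
  have a2 : E1 S w m σ N τ (fun u => (∑ j ∈ G, δ * Aw S τ (τ + j * δ)
      (rr S (τ + j * δ) Y) u) + c0 * (L * tA S τ Y u + n * (∑ i, Y i i) * Real.exp (-L))) z =
      (∑ j ∈ G, δ * E1 S w m σ N (τ + j * δ) (rr S (τ + j * δ) Y) z) +
        c0 * (L * (∑ i, ∑ j, Y i j * Cb S w m σ N z i j) +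
          n * (∑ i, Y i i) * Real.exp (-L)) := by
    rw [E1_add hm (EG.sum G fun j _ => eR j) eC, E1_sum hm G (fun j _ => eR j), E1_const_mul,
      E1_add hm ((eg_tA τ Y).const_mul L) (EG.const _), E1_const_mul, E1_const hm,
      E1_tA hm h1 hτ]
    congr 1
    refine Finset.sum_congr rfl fun j hj => ?_
    rw [E1_const_mul, E1_tower h1 (hjδ j) (h3 j hj) (eg_rr _ Y)]
  rw [a1, a2] at h
  exact h

lemma tr_Q1_le (hm : Pm m N) (z : Pair n → ℝ) : ∑ i, Q1 S w m σ N t z i i ≤ (n : ℝ) ^ 2 := by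
  refine (Finset.sum_le_sum fun i _ => (le_abs_self _).trans (abs_Q1 hm z i i)).trans
    (le_of_eq ?_)
  rw [Finset.sum_const, Finset.card_univ, Fintype.card_fin, nsmul_eq_mul]
  ring

/-- the row with the weight `Q_1(τ)` -/
theorem row_Q (hr : Row S τ δ κ c0 L G) (hm : Pm m N) (hn : 0 < n) (h1 : w ≤ τ) (hδ : 0 ≤ δ)
    (h3 : ∀ j ∈ G, τ + j * δ ≤ 1) (hτ : τ ≤ 1) (hc0 : 0 ≤ c0)
    (hL : (n : ℝ) ^ 3 * Real.exp (-L) ≤ 1) (z : Pair n → ℝ) :
    κ * ∑ j ∈ G, δ * E1 S w m σ N (τ + j * δ) (tAf S (τ + j * δ) (Q1 S w m σ N τ z)) z ≤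
      (∑ j ∈ G, δ * E1 S w m σ N (τ + j * δ) (rr S (τ + j * δ) (Q1 S w m σ N τ z)) z) +
        c0 * ((L + 1) * aC S w m σ N τ z) := by
  have h := row_E1 (σ := σ) hr hm h1 hδ h3 hτ (Q1_psd (S := S) (w := w) (t := τ) (σ := σ) hm z) z
  refine h.trans (add_le_add le_rfl (mul_le_mul_of_nonneg_left ?_ hc0))
  have h2 : (n : ℝ) * (∑ i, Q1 S w m σ N τ z i i) * Real.exp (-L) ≤ aC S w m σ N τ z := by
    calc (n : ℝ) * (∑ i, Q1 S w m σ N τ z i i) * Real.exp (-L) ≤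
          (n : ℝ) * (n : ℝ) ^ 2 * Real.exp (-L) := by
          refine mul_le_mul_of_nonneg_right ?_ (Real.exp_pos _).le
          exact mul_le_mul_of_nonneg_left (tr_Q1_le hm z) (Nat.cast_nonneg n)
      _ = (n : ℝ) ^ 3 * Real.exp (-L) := by ring
      _ ≤ 1 := hL
      _ ≤ _ := aC_ge hm hn h1 hτ z
  have e : ∑ i, ∑ j, Q1 S w m σ N τ z i j * Cb S w m σ N z i j = aC S w m σ N τ z := rfl
  rw [e]
  linarith

/-! ### the means over the deep position -/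

/-- `E tr (Q_1(t) C_1)` -/
noncomputable def BB (S : CS n k x) (w : ℝ) (m σ : ℕ → ℝ) (N : ℕ) (c t : ℝ) : ℝ :=
  ∫ g, aC S w m σ N t (c • g) ∂(gI (Pair n))

/-- `E tr (Q_1(τ) C_t) |C_t|²` -/
noncomputable def MM (S : CS n k x) (w : ℝ) (m σ : ℕ → ℝ) (N : ℕ) (c τ t : ℝ) : ℝ :=
  ∫ g, E1 S w m σ N t (tAf S t (Q1 S w m σ N τ (c • g))) (c • g) ∂(gI (Pair n))

/-- `E (σ' Q_1(τ) σ) (σ' C_t σ)` -/
noncomputable def RT (S : CS n k x) (w : ℝ) (m σ : ℕ → ℝ) (N : ℕ) (c τ t : ℝ) : ℝ :=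
  ∫ g, E1 S w m σ N t (rr S t (Q1 S w m σ N τ (c • g))) (c • g) ∂(gI (Pair n))

lemma eg_BB (hm : Pm m N) (c t : ℝ) : EG fun g : Pair n → ℝ => aC S w m σ N t (c • g) :=
  eg_sc (eg_aC hm) c

lemma eg_MM (hm : Pm m N) (c τ t : ℝ) : EG fun g : Pair n → ℝ =>
    E1 S w m σ N t (tAf S t (Q1 S w m σ N τ (c • g))) (c • g) := by
  refine eg_sc (G := fun z => E1 S w m σ N t (tAf S t (Q1 S w m σ N τ z)) z) ?_ c
  have h : (fun z => E1 S w m σ N t (tAf S t (Q1 S w m σ N τ z)) z) = fun z =>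
      ∑ i, ∑ j, Q1 S w m σ N τ z i j * E1 S w m σ N t (fE S t i j) z :=
    funext fun z => E1_tAf hm _ z
  rw [h]
  exact EG.sum _ fun i _ => EG.sum _ fun j _ => (eg_Q1 hm i j).mul (eg_E1 hm (eg_fE t i j))

lemma eg_RT (hm : Pm m N) (c τ t : ℝ) : EG fun g : Pair n → ℝ =>
    E1 S w m σ N t (rr S t (Q1 S w m σ N τ (c • g))) (c • g) := by
  refine eg_sc (G := fun z => E1 S w m σ N t (rr S t (Q1 S w m σ N τ z)) z) ?_ c
  have h : (fun z => E1 S w m σ N t (rr S t (Q1 S w m σ N τ z)) z) = fun z =>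
      ∑ i, ∑ j, Q1 S w m σ N τ z i j * E1 S w m σ N t (rE S t i j) z :=
    funext fun z => E1_rr hm _ z
  rw [h]
  exact EG.sum _ fun i _ => EG.sum _ fun j _ => (eg_Q1 hm i j).mul (eg_E1 hm (eg_rE t i j))

theorem BB_mono (hm : Pm m N) (c : ℝ) (h1 : w ≤ t) (h2 : t ≤ t') (h3 : t' ≤ 1) :
    BB S w m σ N c t ≤ BB S w m σ N c t' :=
  integral_mono (eg_BB hm c t).integrable (eg_BB hm c t').integrable
    fun g => aC_mono hm h1 h2 h3 (c • g)

theorem BB_ge (hm : Pm m N) (c : ℝ) (hn : 0 < n) (h1 : w ≤ t) (h2 : t ≤ 1) :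
    1 ≤ BB S w m σ N c t := by
  have h := integral_mono (integrable_const (μ := gI (Pair n)) (1 : ℝ))
    (eg_BB (S := S) (w := w) (σ := σ) hm c t).integrable fun g => aC_ge hm hn h1 h2 (c • g)
  rw [integral_const, probReal_univ, one_smul] at h
  exact h

theorem BB_le (hm : Pm m N) (c : ℝ) : BB S w m σ N c t ≤ (n : ℝ) ^ 3 := by
  have h := integral_mono (eg_BB (S := S) (w := w) (σ := σ) hm c t).integrable
    (integrable_const (μ := gI (Pair n)) ((n : ℝ) ^ 3)) fun g => aC_le hm (c • g)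
  rw [integral_const, probReal_univ, one_smul] at h
  exact h

/-- the overlap functional increases with the time of the weight -/
theorem RT_mono (hm : Pm m N) (c : ℝ) (h1 : w ≤ τ) (h2 : τ ≤ t) (h3 : t ≤ 1) :
    RT S w m σ N c τ t ≤ RT S w m σ N c t t :=
  integral_mono (eg_RT hm c τ t).integrable (eg_RT hm c t t).integrable fun g =>
    E1_mono hm (eg_rr t _) (eg_rr t _) (fun u => rr_mono (Q1_inc hm h1 h2 h3 (c • g)) t u)
      (c • g)

lemma int_sumG {f : ℕ → (Pair n → ℝ) → ℝ} (hf : ∀ j, EG (f j)) (G : Finset ℕ) (δ : ℝ) :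
    ∫ g, ∑ j ∈ G, δ * f j g ∂(gI (Pair n)) = ∑ j ∈ G, δ * ∫ g, f j g ∂(gI (Pair n)) := by
  rw [integral_finsetSum _ fun j _ => ((hf j).const_mul δ).integrable]
  exact Finset.sum_congr rfl fun j _ => integral_const_mul _ _

/-- **The integrated row**, weight at the start of the interval. -/
theorem row_int (hr : Row S τ δ κ c0 L G) (hm : Pm m N) (hn : 0 < n) (h1 : w ≤ τ) (hδ : 0 ≤ δ)
    (h3 : ∀ j ∈ G, τ + j * δ ≤ 1) (hτ : τ ≤ 1) (hc0 : 0 ≤ c0)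
    (hL : (n : ℝ) ^ 3 * Real.exp (-L) ≤ 1) (c : ℝ) :
    κ * ∑ j ∈ G, δ * MM S w m σ N c τ (τ + j * δ) ≤
      (∑ j ∈ G, δ * RT S w m σ N c τ (τ + j * δ)) + c0 * ((L + 1) * BB S w m σ N c τ) := by
  have i1 : EG fun g : Pair n → ℝ => κ * ∑ j ∈ G, δ * E1 S w m σ N (τ + j * δ)
      (tAf S (τ + j * δ) (Q1 S w m σ N τ (c • g))) (c • g) :=
    (EG.sum G fun j _ => (eg_MM hm c τ (τ + j * δ)).const_mul δ).const_mul κ
  have i2 : EG fun g : Pair n → ℝ => ∑ j ∈ G, δ * E1 S w m σ N (τ + j * δ)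
      (rr S (τ + j * δ) (Q1 S w m σ N τ (c • g))) (c • g) :=
    EG.sum G fun j _ => (eg_RT hm c τ (τ + j * δ)).const_mul δ
  have i3 : EG fun g : Pair n → ℝ => c0 * ((L + 1) * aC S w m σ N τ (c • g)) :=
    ((eg_BB hm c τ).const_mul _).const_mul _
  have h := integral_mono i1.integrable (i2.add i3).integrable fun g =>
    row_Q hr hm hn h1 hδ h3 hτ hc0 hL (c • g)
  rw [integral_const_mul, integral_add i2.integrable i3.integrable, integral_const_mul,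
    integral_const_mul,
    int_sumG (f := fun j g => E1 S w m σ N (τ + j * δ)
      (tAf S (τ + j * δ) (Q1 S w m σ N τ (c • g))) (c • g)) (fun j => eg_MM hm c τ _),
    int_sumG (f := fun j g => E1 S w m σ N (τ + j * δ)
      (rr S (τ + j * δ) (Q1 S w m σ N τ (c • g))) (c • g)) (fun j => eg_RT hm c τ _)] at h
  exact h

/-- **The row at one good time**, for one interval on which `BB` is almost constant. -/
theorem row_at (hr : Row S τ δ κ c0 L G) (hm : Pm m N) (hn : 0 < n) (h1 : w ≤ τ) (hδ : 0 < δ)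
    (h3 : ∀ j ∈ G, τ + j * δ ≤ 1) (hτ : τ ≤ 1) (hc0 : 0 ≤ c0) (hκ : 0 ≤ κ)
    (hL : (n : ℝ) ^ 3 * Real.exp (-L) ≤ 1) (c : ℝ) {q Λ : ℝ}
    (hG : G.Nonempty) (hq0 : 0 < q)
    (hq : ∀ j ∈ G, BB S w m σ N c (τ + j * δ) ≤ q * BB S w m σ N c τ)
    (hlow : ∀ j ∈ G, Λ * BB S w m σ N c τ ≤ MM S w m σ N c τ (τ + j * δ)) :
    ∃ j ∈ G, (κ * Λ - c0 * (L + 1) / (δ * G.card)) * BB S w m σ N c (τ + j * δ) ≤
      q * RT S w m σ N c (τ + j * δ) (τ + j * δ) := by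
  have hcard : (0 : ℝ) < G.card := by exact_mod_cast Finset.card_pos.2 hG
  have hjδ : ∀ j : ℕ, τ ≤ τ + j * δ := fun j => by
    have : 0 ≤ (j : ℝ) * δ := mul_nonneg (Nat.cast_nonneg _) hδ.le
    linarith
  have hB1 : 1 ≤ BB S w m σ N c τ := BB_ge hm c hn h1 hτ
  have hBj : ∀ j ∈ G, 1 ≤ BB S w m σ N c (τ + j * δ) := fun j hj =>
    BB_ge hm c hn (h1.trans (hjδ j)) (h3 j hj)
  set ρ := κ * Λ - c0 * (L + 1) / (δ * G.card) with hρ
  by_contra hcon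
  push Not at hcon
  have h := row_int (σ := σ) hr hm hn h1 hδ.le h3 hτ hc0 hL c
  have hR0 : ∀ j ∈ G, 0 ≤ RT S w m σ N c (τ + j * δ) (τ + j * δ) := fun j _ =>
    integral_nonneg fun g => E1_nonneg (fun u => Finset.sum_nonneg fun s _ =>
      mul_nonneg (S.mu0 _ u s) (mul_nonneg (qs_nonneg (Q1_psd hm _) s)
        (qs_nonneg (S.psd_A _ u) s))) _
  have hρ0 : 0 < ρ := by
    obtain ⟨j, hj⟩ := hG
    have h2 := hcon j hj
    have h4 := hBj j hj
    have h5 : 0 ≤ q * RT S w m σ N c (τ + j * δ) (τ + j * δ) := mul_nonneg hq0.le (hR0 j hj)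
    by_contra h6
    push Not at h6
    have : ρ * BB S w m σ N c (τ + j * δ) ≤ 0 :=
      mul_nonpos_of_nonpos_of_nonneg h6 (by linarith)
    linarith
  -- the upper bound of the right side
  have u1 : ∀ j ∈ G, q * (δ * RT S w m σ N c τ (τ + j * δ)) <
      δ * (ρ * (q * BB S w m σ N c τ)) := by
    intro j hj
    have h2 := RT_mono (S := S) (σ := σ) hm c h1 (hjδ j) (h3 j hj)
    have h4 : q * RT S w m σ N c τ (τ + j * δ) ≤
        q * RT S w m σ N c (τ + j * δ) (τ + j * δ) := mul_le_mul_of_nonneg_left h2 hq0.le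
    have h5 : ρ * BB S w m σ N c (τ + j * δ) ≤ ρ * (q * BB S w m σ N c τ) :=
      mul_le_mul_of_nonneg_left (hq j hj) hρ0.le
    have h6 : q * RT S w m σ N c τ (τ + j * δ) < ρ * (q * BB S w m σ N c τ) :=
      lt_of_le_of_lt h4 (lt_of_lt_of_le (hcon j hj) h5)
    calc q * (δ * RT S w m σ N c τ (τ + j * δ)) =
          δ * (q * RT S w m σ N c τ (τ + j * δ)) := by ring
      _ < _ := mul_lt_mul_of_pos_left h6 hδ
  have u2 : q * ∑ j ∈ G, δ * RT S w m σ N c τ (τ + j * δ) <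
      G.card * (δ * (ρ * (q * BB S w m σ N c τ))) := by
    rw [Finset.mul_sum]
    have := Finset.sum_lt_sum_of_nonempty hG u1
    rwa [Finset.sum_const, nsmul_eq_mul] at this
  have u3 : G.card * (δ * (Λ * BB S w m σ N c τ)) ≤
      ∑ j ∈ G, δ * MM S w m σ N c τ (τ + j * δ) := by
    have h2 : ∀ j ∈ G, δ * (Λ * BB S w m σ N c τ) ≤ δ * MM S w m σ N c τ (τ + j * δ) :=
      fun j hj => mul_le_mul_of_nonneg_left (hlow j hj) hδ.le
    have h4 := Finset.sum_le_sum h2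
    rwa [Finset.sum_const, nsmul_eq_mul] at h4
  have u4 : q * (κ * (G.card * (δ * (Λ * BB S w m σ N c τ)))) ≤
      q * ((∑ j ∈ G, δ * RT S w m σ N c τ (τ + j * δ)) +
        c0 * ((L + 1) * BB S w m σ N c τ)) :=
    mul_le_mul_of_nonneg_left ((mul_le_mul_of_nonneg_left u3 hκ).trans h) hq0.le
  have e1 : G.card * (δ * (ρ * (q * BB S w m σ N c τ))) =
      q * (κ * (G.card * (δ * (Λ * BB S w m σ N c τ)))) -
        q * (c0 * ((L + 1) * BB S w m σ N c τ)) := by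
    rw [hρ]
    field_simp
  rw [e1] at u2
  linarith

/-- **(3c), the overlap row at a good time of one of `J` intervals.** On each of the `J`
consecutive intervals `[T0 + i h, T0 + (i + 1) h]` a set `G i` of grid times
`T0 + i h + j δ` is prescribed; at some time of one of these sets the overlap row holds in the
weight `Q_1` of the same time. -/
theorem row_time {T0 h Θ q Λ : ℝ} {J M : ℕ} {G : ℕ → Finset ℕ} (hm : Pm m N) (hn : 0 < n)
    (h1 : w ≤ T0) (hJ : 0 < J) (hh : 0 ≤ h) (hT1 : T0 + J * h ≤ 1) (hδ : 0 < δ)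
    (hM : M * δ ≤ h) (hG : ∀ i < J, G i ⊆ Finset.range M) (hΘ : 0 < Θ)
    (hGc : ∀ i < J, Θ ≤ δ * (G i).card)
    (hr : ∀ i < J, Row S (T0 + i * h) δ κ c0 L (G i)) (hc0 : 0 ≤ c0) (hκ : 0 ≤ κ)
    (hL0 : 0 ≤ L) (hL : (n : ℝ) ^ 3 * Real.exp (-L) ≤ 1) (c : ℝ) (hq0 : 0 < q)
    (hq : (n : ℝ) ^ 3 ≤ q ^ J)
    (hlow : ∀ i < J, ∀ j ∈ G i, Λ * BB S w m σ N c (T0 + i * h) ≤
      MM S w m σ N c (T0 + i * h) (T0 + i * h + j * δ)) :
    ∃ i < J, ∃ j ∈ G i, (κ * Λ - c0 * (L + 1) / Θ) *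
        BB S w m σ N c (T0 + i * h + j * δ) ≤
      q * RT S w m σ N c (T0 + i * h + j * δ) (T0 + i * h + j * δ) := by
  have hih : ∀ i : ℕ, T0 ≤ T0 + i * h := fun i => by
    have : 0 ≤ (i : ℝ) * h := mul_nonneg (Nat.cast_nonneg _) hh
    linarith
  have hiJ : ∀ i : ℕ, i ≤ J → T0 + i * h ≤ 1 := fun i hi => by
    have h2 : (i : ℝ) ≤ J := by exact_mod_cast hi
    have := mul_le_mul_of_nonneg_right h2 hh
    linarith
  obtain ⟨i, hi, hi2⟩ := pig_seq (f := fun i : ℕ => BB S w m σ N c (T0 + i * h)) (J := J)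
    (R := (n : ℝ) ^ 3) (q := q) (by
      have := BB_ge (S := S) (w := w) (σ := σ) hm c hn (h1.trans (hih 0)) (hiJ 0 hJ.le)
      linarith) hq0.le (by
      have h2 := BB_ge (S := S) (w := w) (σ := σ) hm c hn (h1.trans (hih 0)) (hiJ 0 hJ.le)
      have h3 := BB_le (S := S) (w := w) (σ := σ) (t := T0 + J * h) hm c
      have h4 : (0 : ℝ) ≤ (n : ℝ) ^ 3 := by positivity
      nlinarith) hq hJ
  have e1 : T0 + ((i + 1 : ℕ) : ℝ) * h = T0 + i * h + h := by push_cast; ring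
  have hi1 : T0 + i * h + h ≤ 1 := by
    rw [← e1]
    exact hiJ (i + 1) hi
  have hjM : ∀ j ∈ G i, T0 + i * h + j * δ ≤ T0 + i * h + h := fun j hj => by
    have h2 := Finset.mem_range.1 (hG i hi hj)
    have h3 : (j : ℝ) ≤ M := by exact_mod_cast h2.le
    have := mul_le_mul_of_nonneg_right h3 hδ.le
    linarith
  have hjδ : ∀ j : ℕ, T0 + i * h ≤ T0 + i * h + j * δ := fun j => by
    have : 0 ≤ (j : ℝ) * δ := mul_nonneg (Nat.cast_nonneg _) hδ.le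
    linarith
  have hne : (G i).Nonempty := by
    rw [Finset.nonempty_iff_ne_empty]
    intro he
    have := hGc i hi
    rw [he, Finset.card_empty, Nat.cast_zero, mul_zero] at this
    linarith
  obtain ⟨j, hj, hj2⟩ := row_at (S := S) (σ := σ) (hr i hi) hm hn (h1.trans (hih i)) hδ
    (fun j hj => (hjM j hj).trans hi1) (hiJ i hi.le) hc0 hκ hL c hne hq0 (fun j hj => by
      have h2 : BB S w m σ N c (T0 + i * h + h) ≤ q * BB S w m σ N c (T0 + i * h) := by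
        rw [← e1]; exact hi2
      exact (BB_mono hm c ((h1.trans (hih i)).trans (hjδ j)) (hjM j hj) hi1).trans h2)
    (hlow i hi)
  refine ⟨i, hi, j, hj, le_trans (mul_le_mul_of_nonneg_right ?_ ?_) hj2⟩
  · have h2 : c0 * (L + 1) / (δ * (G i).card) ≤ c0 * (L + 1) / Θ :=
      div_le_div_of_nonneg_left (by positivity) hΘ (hGc i hi)
    linarith
  · have := BB_ge (S := S) (w := w) (σ := σ) hm c hn ((h1.trans (hih i)).trans (hjδ j))
      ((hjM j hj).trans hi1)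
    linarith

/-! ### the letters of the layered laws -/

section layer

variable {m' σ' : ℕ → ℝ}

/-- the weight `Q_1` of the same time, in the letters of the layered laws -/
theorem RT_eq (h1 : w ≤ t) (h2 : t ≤ 1) (hm0 : m' 0 = x) (hσ0 : σ' 0 = √(t - w)) (N : ℕ)
    (c : ℝ) : ∫ g, Tl S t m' σ' (rr S t (QR S t m' σ' (N + 1) (c • g))) (N + 1) (c • g)
      ∂(gI (Pair n)) =
      RT S w (fun j => m' (1 + j)) (fun j => σ' (1 + j)) N c t t := by
  unfold RT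
  simp only [QR_eq_Q1 h1 h2 hm0 hσ0, Tl_eq_E1 h1 h2 hm0 hσ0]

theorem MM_eq (h1 : w ≤ t) (h2 : t ≤ 1) (hm0 : m' 0 = x) (hσ0 : σ' 0 = √(t - w)) (N : ℕ)
    (c : ℝ) : ∫ g, Tl S t m' σ' (tAf S t (QR S t m' σ' (N + 1) (c • g))) (N + 1) (c • g)
      ∂(gI (Pair n)) =
      MM S w (fun j => m' (1 + j)) (fun j => σ' (1 + j)) N c t t := by
  unfold MM
  simp only [QR_eq_Q1 h1 h2 hm0 hσ0, Tl_eq_E1 h1 h2 hm0 hσ0]

/-- `E tr (Y C)` -/
theorem BB_eq (hm : Pm (fun j => m' (1 + j)) N) (h1 : w ≤ t) (h2 : t ≤ 1) (hm0 : m' 0 = x)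
    (hσ0 : σ' 0 = √(t - w)) (c : ℝ) :
    ∫ g, Tl S t m' σ' (tA S t (QR S t m' σ' (N + 1) (c • g))) (N + 1) (c • g)
      ∂(gI (Pair n)) =
      BB S w (fun j => m' (1 + j)) (fun j => σ' (1 + j)) N c t := by
  unfold BB
  simp only [QR_eq_Q1 h1 h2 hm0 hσ0, Tl_eq_E1 h1 h2 hm0 hσ0]
  refine integral_congr_ae (Filter.Eventually.of_forall fun g => ?_)
  simp only
  rw [E1_tA hm h1 h2]
  rfl

end layer

end Vale.Agent.P146.H499.RepT
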