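import Vale.Agent.P146.H499.PsdR
import Vale.Agent.P146.H655.GridC

/-!
Row (A3), leaf (3c), second part: the good time in the form `(1 - e) R ≤ E (s'Ys) (s'Cs)`, with
`R = E tr (Y C) |C|²` at the same time.
-/

open MeasureTheory ProbabilityTheory

namespace Vale.Agent.P146.H499.RepT

open Vale.Agent.P157.Lv Vale.Agent.P146.H425 Vale.Agent.P146.H325 Vale.Agent.P146.H332
  Vale.Agent.P146.H712 Vale.Agent.P146.H816 Vale.Agent.P146.R1 Vale.Agent.P146.R1C Matrix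
  Vale.Agent.P146.R1S Vale.Agent.P146.H693 Vale.Agent.P146.H655
open Vale.Agent.P146.H785 (Ax)
open Vale.Agent.P146.H765 (qs qs_nonneg Kv)
open Vale.Agent.P146.H946.En2 (pB bd eg_bd bd_nonneg frA_le_bd eg_pB pB_nonneg)
open Vale.Agent.P146.H95.R2 (Tw Yq)

set_option linter.unusedSectionVars false

variable {n : ℕ} {k x : ℝ} {S : CS n k x} {w t t' τ δ κ c0 L c : ℝ} {m σ : ℕ → ℝ} {N : ℕ}
  {G : Finset ℕ}

lemma tA_sub (M M' : Matrix (Fin n) (Fin n) ℝ) (t : ℝ) (u : Pair n → ℝ) :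
    tA S t (M' - M) u = tA S t M' u - tA S t M u := by
  unfold tA
  rw [← Finset.sum_sub_distrib]
  refine Finset.sum_congr rfl fun i _ => ?_
  rw [← Finset.sum_sub_distrib]
  exact Finset.sum_congr rfl fun j _ => by rw [Matrix.sub_apply]; ring

lemma tA_abs_le {b : ℝ} {M : Matrix (Fin n) (Fin n) ℝ} (hb : ∀ i j, |M i j| ≤ b) (t : ℝ)
    (u : Pair n → ℝ) : |tA S t M u| ≤ (n : ℝ) ^ 2 * b := by
  unfold tA
  have h : ∀ i j, |M i j * S.A t u i j| ≤ b := by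
    intro i j
    rw [abs_mul]
    calc |M i j| * |S.A t u i j| ≤ b * 1 := mul_le_mul (hb i j) (S.abs_A t u i j) (abs_nonneg _)
          ((abs_nonneg _).trans (hb i j))
      _ = b := mul_one _
  refine (Finset.abs_sum_le_sum_abs _ _).trans ?_
  refine (Finset.sum_le_sum fun i _ => (Finset.abs_sum_le_sum_abs _ _).trans
    (Finset.sum_le_sum fun j _ => h i j)).trans ?_
  simp only [Finset.sum_const, Finset.card_univ, Fintype.card_fin, nsmul_eq_mul]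
  exact le_of_eq (by ring)

/-- the size bound for a small psd weight -/
lemma tAf_le_bd {b Nb : ℝ} {M : Matrix (Fin n) (Fin n) ℝ} (hM : Psd M)
    (hb : ∀ i j, |M i j| ≤ b) (hN : 0 ≤ Nb) (t : ℝ) (u : Pair n → ℝ) :
    tAf S t M u ≤ Nb * tA S t M u + (n : ℝ) ^ 4 * b * bd S Nb t u := by
  have a1 := frA_le_bd (S := S) hN t u
  have a2 := tA_nonneg (S := S) hM t u
  have a3 := (le_abs_self _).trans (tA_abs_le (S := S) hb t u)
  have a4 : 0 ≤ (n : ℝ) ^ 2 * bd S Nb t u := mul_nonneg (by positivity) (bd_nonneg _ _ _)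
  unfold tAf
  calc tA S t M u * fr (S.A t u) ≤ tA S t M u * (Nb + (n : ℝ) ^ 2 * bd S Nb t u) :=
        mul_le_mul_of_nonneg_left a1 a2
    _ = Nb * tA S t M u + tA S t M u * ((n : ℝ) ^ 2 * bd S Nb t u) := by ring
    _ ≤ Nb * tA S t M u + ((n : ℝ) ^ 2 * b) * ((n : ℝ) ^ 2 * bd S Nb t u) :=
        add_le_add le_rfl (mul_le_mul_of_nonneg_right a3 a4)
    _ = _ := by ring

/-- **`R` with the weight of the same time against `R` with the frozen weight.** -/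
theorem MM_step {Nb : ℝ} (hm : Pm m N) (c : ℝ) (hN : 0 ≤ Nb) (h1 : w ≤ τ) (h2 : τ ≤ t)
    (h3 : t ≤ 1) :
    MM S w m σ N c t t ≤ MM S w m σ N c τ t +
      (Nb * (BB S w m σ N c t - BB S w m σ N c τ) + 2 * (n : ℝ) ^ 5 * pB S w m σ N c Nb t) := by
  have key : ∀ z, E1 S w m σ N t (tAf S t (Q1 S w m σ N t z)) z ≤
      E1 S w m σ N t (tAf S t (Q1 S w m σ N τ z)) z +
        (Nb * (aC S w m σ N t z - aC S w m σ N τ z) +
          2 * (n : ℝ) ^ 5 * E1 S w m σ N t (bd S Nb t) z) := by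
    intro z
    have hP := Q1_inc (S := S) (σ := σ) hm h1 h2 h3 z
    have hb : ∀ i j, |(Q1 S w m σ N t z - Q1 S w m σ N τ z) i j| ≤ 2 * n := by
      intro i j
      rw [Matrix.sub_apply]
      have b1 := abs_Q1 (S := S) (w := w) (t := t) (σ := σ) hm z i j
      have b2 := abs_Q1 (S := S) (w := w) (t := τ) (σ := σ) hm z i j
      exact (abs_sub _ _).trans (by linarith)
    have a1 := E1_mono (S := S) (w := w) (t := t) (σ := σ) hm
      (eg_tAf t (Q1 S w m σ N t z - Q1 S w m σ N τ z))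
      (((eg_tA t (Q1 S w m σ N t z - Q1 S w m σ N τ z)).const_mul Nb).add
        ((eg_bd S Nb t).const_mul ((n : ℝ) ^ 4 * (2 * n))))
      (fun u => tAf_le_bd hP hb hN t u) z
    rw [E1_add hm ((eg_tA t _).const_mul Nb) ((eg_bd S Nb t).const_mul _), E1_const_mul,
      E1_const_mul, E1_tA hm (h1.trans h2) h3] at a1
    have e1 : E1 S w m σ N t (tAf S t (Q1 S w m σ N t z - Q1 S w m σ N τ z)) z =
        E1 S w m σ N t (tAf S t (Q1 S w m σ N t z)) z -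
          E1 S w m σ N t (tAf S t (Q1 S w m σ N τ z)) z := by
      rw [← E1_sub hm (eg_tAf t _) (eg_tAf t _)]
      congr 1
      funext u
      unfold tAf
      rw [tA_sub]
      ring
    have e2 : ∑ i, ∑ j, (Q1 S w m σ N t z - Q1 S w m σ N τ z) i j * Cb S w m σ N z i j =
        aC S w m σ N t z - aC S w m σ N τ z := by
      unfold aC
      rw [← Finset.sum_sub_distrib]
      refine Finset.sum_congr rfl fun i _ => ?_
      rw [← Finset.sum_sub_distrib]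
      exact Finset.sum_congr rfl fun j _ => by rw [Matrix.sub_apply]; ring
    rw [e1, e2] at a1
    have e3 : (n : ℝ) ^ 4 * (2 * n) = 2 * (n : ℝ) ^ 5 := by ring
    rw [e3] at a1
    have a2 : E1 S w m σ N t (fun u => bd S Nb t u) z = E1 S w m σ N t (bd S Nb t) z := rfl
    linarith
  have i1 := eg_MM (S := S) (w := w) (σ := σ) hm c τ t
  have i2 := eg_BB (S := S) (w := w) (σ := σ) hm c t
  have i3 := eg_BB (S := S) (w := w) (σ := σ) hm c τ
  have i4 := eg_pB (S := S) (w := w) (t := t) (σ := σ) hm c Nb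
  have i5 : EG fun g : Pair n → ℝ => Nb * (aC S w m σ N t (c • g) - aC S w m σ N τ (c • g)) +
      2 * (n : ℝ) ^ 5 * E1 S w m σ N t (bd S Nb t) (c • g) :=
    ((i2.sub i3).const_mul Nb).add (i4.const_mul _)
  have h := integral_mono (eg_MM hm c t t).integrable (i1.add i5).integrable
    fun g => key (c • g)
  rw [integral_add i1.integrable i5.integrable,
    integral_add ((i2.sub i3).const_mul Nb).integrable (i4.const_mul _).integrable,
    integral_const_mul, integral_const_mul, integral_sub i2.integrable i3.integrable] at h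
  exact h

/-- one interval -/
theorem row_atR (hr : Row S τ δ κ c0 L G) (hm : Pm m N) (hn : 0 < n) (h1 : w ≤ τ) (hδ : 0 < δ)
    (h3 : ∀ j ∈ G, τ + j * δ ≤ 1) (hτ : τ ≤ 1) (hc0 : 0 ≤ c0) (hL0 : 0 ≤ L)
    (hL : (n : ℝ) ^ 3 * Real.exp (-L) ≤ 1) (c : ℝ) {q Λ Θ Nb η e ε : ℝ}
    (hΘ : 0 < Θ) (hG : Θ ≤ δ * G.card) (hΛ : 0 < Λ) (hNb : 0 ≤ Nb) (he : e ≤ 1) (hε0 : 0 ≤ ε)
    (hq : ∀ j ∈ G, BB S w m σ N c (τ + j * δ) ≤ q * BB S w m σ N c τ)
    (hη : ∀ j ∈ G, pB S w m σ N c Nb (τ + j * δ) ≤ η) (hη0 : 0 ≤ η)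
    (hε : Nb * (q - 1) + 2 * (n : ℝ) ^ 5 * η ≤ ε * Λ)
    (hκe : (1 - e) * (1 + ε) + c0 * (L + 1) / (Λ * Θ) ≤ κ)
    (hlow : ∀ j ∈ G, Λ * BB S w m σ N c τ ≤ MM S w m σ N c τ (τ + j * δ)) :
    ∃ j ∈ G, (1 - e) * MM S w m σ N c (τ + j * δ) (τ + j * δ) ≤
      RT S w m σ N c (τ + j * δ) (τ + j * δ) := by
  have hne : G.Nonempty := by
    rw [Finset.nonempty_iff_ne_empty]
    intro hE
    rw [hE, Finset.card_empty, Nat.cast_zero, mul_zero] at hG
    linarith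
  have hjδ : ∀ j : ℕ, τ ≤ τ + j * δ := fun j => by
    have : 0 ≤ (j : ℝ) * δ := mul_nonneg (Nat.cast_nonneg _) hδ.le
    linarith
  have hB1 : 1 ≤ BB S w m σ N c τ := BB_ge hm c hn h1 hτ
  by_contra hcon
  push Not at hcon
  have h := row_int (σ := σ) hr hm hn h1 hδ.le h3 hτ hc0 hL c
  set B := BB S w m σ N c τ with hB
  set T := ∑ j ∈ G, δ * MM S w m σ N c τ (τ + j * δ) with hT
  -- the weights of the same time
  have u1 : ∀ j ∈ G, δ * RT S w m σ N c τ (τ + j * δ) <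
      δ * ((1 - e) * ((1 + ε) * MM S w m σ N c τ (τ + j * δ))) := by
    intro j hj
    have a1 := RT_mono (S := S) (σ := σ) hm c h1 (hjδ j) (h3 j hj)
    have a2 := hcon j hj
    have a3 := MM_step (S := S) (σ := σ) (τ := τ) (t := τ + j * δ) hm c hNb h1 (hjδ j) (h3 j hj)
    have a4 := hq j hj
    have a5 := hη j hj
    have a6 := hlow j hj
    have a7 : Nb * (BB S w m σ N c (τ + j * δ) - B) ≤ Nb * ((q - 1) * B) :=
      mul_le_mul_of_nonneg_left (by linarith) hNb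
    have a8 : 2 * (n : ℝ) ^ 5 * pB S w m σ N c Nb (τ + j * δ) ≤ 2 * (n : ℝ) ^ 5 * η * B := by
      have b1 : 2 * (n : ℝ) ^ 5 * pB S w m σ N c Nb (τ + j * δ) ≤ 2 * (n : ℝ) ^ 5 * η :=
        mul_le_mul_of_nonneg_left a5 (by positivity)
      have b2 : 2 * (n : ℝ) ^ 5 * η * 1 ≤ 2 * (n : ℝ) ^ 5 * η * B :=
        mul_le_mul_of_nonneg_left hB1 (by positivity)
      linarith
    have a9 : (Nb * (q - 1) + 2 * (n : ℝ) ^ 5 * η) * B ≤ ε * Λ * B :=
      mul_le_mul_of_nonneg_right hε (by linarith)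
    have a10 : ε * (Λ * B) ≤ ε * MM S w m σ N c τ (τ + j * δ) :=
      mul_le_mul_of_nonneg_left a6 hε0
    have a11 : MM S w m σ N c (τ + j * δ) (τ + j * δ) ≤
        (1 + ε) * MM S w m σ N c τ (τ + j * δ) := by nlinarith
    have a12 := mul_le_mul_of_nonneg_left a11 (by linarith : 0 ≤ 1 - e)
    exact mul_lt_mul_of_pos_left (by linarith) hδ
  have u2 : ∑ j ∈ G, δ * RT S w m σ N c τ (τ + j * δ) < (1 - e) * (1 + ε) * T := by
    have a1 := Finset.sum_lt_sum_of_nonempty hne u1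
    refine lt_of_lt_of_le a1 (le_of_eq ?_)
    rw [hT, Finset.mul_sum]
    exact Finset.sum_congr rfl fun j _ => by ring
  have u3 : Θ * (Λ * B) ≤ T := by
    have a1 : ∀ j ∈ G, δ * (Λ * B) ≤ δ * MM S w m σ N c τ (τ + j * δ) :=
      fun j hj => mul_le_mul_of_nonneg_left (hlow j hj) hδ.le
    have a2 := Finset.sum_le_sum a1
    rw [Finset.sum_const, nsmul_eq_mul] at a2
    have a3 : Θ * (Λ * B) ≤ δ * G.card * (Λ * B) :=
      mul_le_mul_of_nonneg_right hG (by positivity)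
    calc Θ * (Λ * B) ≤ δ * G.card * (Λ * B) := a3
      _ = G.card * (δ * (Λ * B)) := by ring
      _ ≤ T := a2
  have hT0 : 0 < T := lt_of_lt_of_le (by positivity) u3
  have u4 : c0 * ((L + 1) * B) ≤ c0 * (L + 1) / (Λ * Θ) * T := by
    have a1 : B ≤ T / (Λ * Θ) := by
      rw [le_div_iff₀ (by positivity)]
      calc B * (Λ * Θ) = Θ * (Λ * B) := by ring
        _ ≤ T := u3
    calc c0 * ((L + 1) * B) = c0 * (L + 1) * B := by ring
      _ ≤ c0 * (L + 1) * (T / (Λ * Θ)) := mul_le_mul_of_nonneg_left a1 (by positivity)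
      _ = _ := by ring
  have u5 : ((1 - e) * (1 + ε) + c0 * (L + 1) / (Λ * Θ)) * T ≤ κ * T :=
    mul_le_mul_of_nonneg_right hκe hT0.le
  linarith

/-- **(3c), second form: `(1 - e) R ≤ E (s'Ys) (s'Cs)` at a good time.** The frozen weight
`Q_1(τ)`, `τ = T0 + i h`, occurs only in the lower size `hlow`. -/
theorem row_timeR {T0 h Θ q Λ Nb η e ε : ℝ} {J M : ℕ} {G : ℕ → Finset ℕ} (hm : Pm m N)
    (hn : 0 < n) (h1 : w ≤ T0) (hJ : 0 < J) (hh : 0 ≤ h) (hT1 : T0 + J * h ≤ 1) (hδ : 0 < δ)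
    (hM : M * δ ≤ h) (hG : ∀ i < J, G i ⊆ Finset.range M) (hΘ : 0 < Θ)
    (hGc : ∀ i < J, Θ ≤ δ * (G i).card)
    (hr : ∀ i < J, Row S (T0 + i * h) δ κ c0 L (G i)) (hc0 : 0 ≤ c0)
    (hL0 : 0 ≤ L) (hL : (n : ℝ) ^ 3 * Real.exp (-L) ≤ 1) (c : ℝ) (hq0 : 0 < q)
    (hq : (n : ℝ) ^ 3 ≤ q ^ J) (hΛ : 0 < Λ) (hNb : 0 ≤ Nb) (he : e ≤ 1) (hε0 : 0 ≤ ε)
    (hη : ∀ i < J, ∀ j ∈ G i, pB S w m σ N c Nb (T0 + i * h + j * δ) ≤ η) (hη0 : 0 ≤ η)
    (hε : Nb * (q - 1) + 2 * (n : ℝ) ^ 5 * η ≤ ε * Λ)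
    (hκe : (1 - e) * (1 + ε) + c0 * (L + 1) / (Λ * Θ) ≤ κ)
    (hlow : ∀ i < J, ∀ j ∈ G i, Λ * BB S w m σ N c (T0 + i * h) ≤
      MM S w m σ N c (T0 + i * h) (T0 + i * h + j * δ)) :
    ∃ i < J, ∃ j ∈ G i,
      (1 - e) * MM S w m σ N c (T0 + i * h + j * δ) (T0 + i * h + j * δ) ≤
        RT S w m σ N c (T0 + i * h + j * δ) (T0 + i * h + j * δ) := by
  have hih : ∀ i : ℕ, T0 ≤ T0 + i * h := fun i => by
    have : 0 ≤ (i : ℝ) * h := mul_nonneg (Nat.cast_nonneg _) hh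
    linarith
  have hiJ : ∀ i : ℕ, i ≤ J → T0 + i * h ≤ 1 := fun i hi => by
    have h2 : (i : ℝ) ≤ J := by exact_mod_cast hi
    have := mul_le_mul_of_nonneg_right h2 hh
    linarith
  obtain ⟨i, hi, hi2⟩ := pig_seq (f := fun i : ℕ => BB S w m σ N c (T0 + i * h)) (J := J)
    (R := (n : ℝ) ^ 3) (q := q) (by
      have := BB_ge (S := S) (w := w) (σ := σ) hm c hn (h1.trans (hih 0)) (hiJ 0 hJ.le)
      linarith) hq0.le (by
      have h2 := BB_ge (S := S) (w := w) (σ := σ) hm c hn (h1.trans (hih 0)) (hiJ 0 hJ.le)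
      have h3 := BB_le (S := S) (w := w) (σ := σ) (t := T0 + J * h) hm c
      have h4 : (0 : ℝ) ≤ (n : ℝ) ^ 3 := by positivity
      nlinarith) hq hJ
  have e1 : T0 + ((i + 1 : ℕ) : ℝ) * h = T0 + i * h + h := by push_cast; ring
  have hi1 : T0 + i * h + h ≤ 1 := by
    rw [← e1]
    exact hiJ (i + 1) hi
  have hjM : ∀ j ∈ G i, T0 + i * h + j * δ ≤ T0 + i * h + h := fun j hj => by
    have h2 := Finset.mem_range.1 (hG i hi hj)
    have h3 : (j : ℝ) ≤ M := by exact_mod_cast h2.le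
    have := mul_le_mul_of_nonneg_right h3 hδ.le
    linarith
  have hjδ : ∀ j : ℕ, T0 + i * h ≤ T0 + i * h + j * δ := fun j => by
    have : 0 ≤ (j : ℝ) * δ := mul_nonneg (Nat.cast_nonneg _) hδ.le
    linarith
  obtain ⟨j, hj, hj2⟩ := row_atR (S := S) (σ := σ) (hr i hi) hm hn (h1.trans (hih i)) hδ
    (fun j hj => (hjM j hj).trans hi1) (hiJ i hi.le) hc0 hL0 hL c hΘ (hGc i hi) hΛ hNb he hε0
    (fun j hj => by
      have h2 : BB S w m σ N c (T0 + i * h + h) ≤ q * BB S w m σ N c (T0 + i * h) := by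
        rw [← e1]; exact hi2
      exact (BB_mono hm c ((h1.trans (hih i)).trans (hjδ j)) (hjM j hj) hi1).trans h2)
    (hη i hi) hη0 hε hκe (hlow i hi)
  exact ⟨i, hi, j, hj, hj2⟩

/-! ### the letters -/

/-- `BB` is 655's `NB` -/
theorem BB_NB (c : ℝ) (h1 : w ≤ 1) : BB S w m σ N c t = NB S w m σ N c t := by
  have hC : ∀ z i j, CW S w m σ N z i j = Cb S w m σ N z i j := fun z i j =>
    RepT.E1_A (S := S) (w := w) (t := w) (m := m) (σ := σ) (N := N) le_rfl h1 i j z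
  unfold BB NB NW
  refine integral_congr_ae (Filter.Eventually.of_forall fun g => ?_)
  simp only
  unfold aC
  exact Finset.sum_congr rfl fun i _ => Finset.sum_congr rfl fun j _ => by rw [hC, mul_comm]

variable {p : Tw}

lemma nRR_eq (hp : p.x = x) (h1 : p.tw ≤ p.t2) (h2 : p.t2 ≤ 1) :
    nRR S p = MM S p.tw (fun j => p.m (1 + j)) (fun j => p.σ (1 + j)) 2 (√p.t0) p.t2 p.t2 := by
  unfold nRR Yq
  exact MM_eq (m' := p.m) (σ' := p.σ) h1 h2 hp rfl 2 (√p.t0)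

lemma nRt_eq (hp : p.x = x) (h1 : p.tw ≤ p.t2) (h2 : p.t2 ≤ 1) :
    nRt S p = RT S p.tw (fun j => p.m (1 + j)) (fun j => p.σ (1 + j)) 2 (√p.t0) p.t2 p.t2 := by
  unfold nRt Yq
  exact RT_eq (m' := p.m) (σ' := p.σ) h1 h2 hp rfl 2 (√p.t0)

end Vale.Agent.P146.H499.RepT
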