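import Vale.Agent.P146.H941.RowN2
import Vale.Agent.P146.H95.RowN
import Vale.Agent.P146.H499.PsdR

/-!
Plan R2, case K: `RowK2` from the rows at one good time, with `R = E tr (Y C) |C|²`; the same
wrapper for case N.
-/

open MeasureTheory ProbabilityTheory Filter Topology

namespace Vale.Agent.P146.H499.RowK

open Vale.Agent.P157.Lv Vale.Agent.P146.H425 Vale.Agent.P146.H325 Vale.Agent.P146.H332
  Vale.Agent.P146.H712 Vale.Agent.P146.H816 Vale.Agent.P146.R1 Vale.Agent.P146.R1C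
  Vale.Agent.P146.R1S Vale.Agent.P146.H461 Vale.Agent.P146.H432 Vale.Agent.P146.H522
open Vale.Agent.P146.H693 (Tm nTt tw)
open Vale.Agent.P146.H941 (F1L RowsAt rowK2_of)
open Vale.Agent.P146.H95 (PackN GoodN ka_ev)
open Vale.Agent.P146.H95.R2 (Tw nA nA3 nK)
open Vale.Agent.P146.H499.RepT (nRR nRt nRs)

set_option linter.unusedSectionVars false

/-- **What the rows deliver at one good time**, for the law
`(0 | θ x on [1-s-h, 1-s] | x on [1-s, 1])`, the deep time `t0` and the late time `t2`, with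
`R := nRR = E tr (Y C) |C|²`. -/
structure PackR (n : ℕ) (β ε θ b ch x s : ℝ) (S : CS n (β / √n) x)
    (θ0 t0 h s1 t2 NL NLt : ℝ) : Prop where
  tm : Tm ⟨x, θ0, t0, 1 - s, s1, t2⟩ (θ * x) h
  deep : 1 - b ≤ t0
  h_lo : (n : ℝ) ^ (-ch) * s ≤ h
  sh : s + h < 1
  /-- (F1), all the errors in `NLt` -/
  hF : F1L (q := ⟨x, θ0, t0, 1 - s, s1, t2⟩) S (θ * x) h (1 / β) ≤ NLt
  /-- the overlap row -/
  hRR : (1 - ε) * nRR S ⟨x, θ * x, t0, 1 - s - h, 1 - s, t2⟩ ≤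
    nRt S ⟨x, θ * x, t0, 1 - s - h, 1 - s, t2⟩
  /-- the lower size -/
  hlow : 7 / 10 * (n * rho n β x s) * nA S ⟨x, θ * x, t0, 1 - s - h, 1 - s, t2⟩ ≤
    nRs S ⟨x, θ * x, t0, 1 - s - h, 1 - s, t2⟩
  hNt : NLt ≤ NL + ε * (β * x / n * nRR S ⟨x, θ * x, t0, 1 - s - h, 1 - s, t2⟩)

section pack

variable {n : ℕ} {β ε θ b ch x s : ℝ} {θ0 t0 h s1 t2 NL NLt : ℝ}

lemma pack_pm (hx : 0 < x) (hθ : 0 < θ) :
    H693.Pm (⟨x, θ * x, t0, 1 - s - h, 1 - s, t2⟩ : Tw).m 3 :=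
  H461.pm3 (p := ⟨x, θ * x, t0, 1 - s - h, 1 - s, t2⟩) hx (mul_pos hθ hx)

/-- the touch term of (F0) -/
theorem PackR.hP {hk : 0 < β / √n} {hx : 0 < x} {hx1 : x ≤ 1}
    (P : PackR n β ε θ b ch x s (skCS n hk hx hx1) θ0 t0 h s1 t2 NL NLt) :
    β / √n * x * ((1 - ε) * nRR (skCS n hk hx hx1) ⟨x, θ * x, t0, 1 - s - h, 1 - s, t2⟩ -
      nA3 (skCS n hk hx hx1) ⟨x, θ * x, t0, 1 - s - h, 1 - s, t2⟩) ≤
    EwG ⟨x, θ0, t0, 1 - s, s1, t2⟩ (GTwo ⟨x, θ0, t0, 1 - s, s1, t2⟩ (θ * x) h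
      (skCS n hk hx hx1).F (skCS n hk hx hx1).D) (skCS n hk hx hx1).F
      (nTt (q := ⟨x, θ0, t0, 1 - s, s1, t2⟩) (skCS n hk hx hx1) (θ * x) h) := by
  have h2 : (0 : ℝ) < t2 := by
    have a := P.tm.ht0
    have b1 := P.tm.ht
    have c := P.tm.hl
    have d := P.tm.h1
    have e := P.tm.h2
    simp only at a b1 d e
    linarith
  exact RepT.hP (q := ⟨x, θ0, t0, 1 - s, s1, t2⟩) (S' := skCS n hk hx hx1)
    (H765.kv_sk n hk hx hx1) P.tm h2 P.hRR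

theorem PackR.hR {hk : 0 < β / √n} {hx : 0 < x} {hx1 : x ≤ 1} (hθ : 0 < θ)
    (P : PackR n β ε θ b ch x s (skCS n hk hx hx1) θ0 t0 h s1 t2 NL NLt) :
    7 / 10 * (n * rho n β x s) *
      nA (skCS n hk hx hx1) ⟨x, θ * x, t0, 1 - s - h, 1 - s, t2⟩ ≤
      nRR (skCS n hk hx hx1) ⟨x, θ * x, t0, 1 - s - h, 1 - s, t2⟩ :=
  P.hlow.trans (RepT.nRs_le_nRR (pack_pm hx hθ))

theorem PackR.hA3 {hk : 0 < β / √n} {hx : 0 < x} {hx1 : x ≤ 1} (hθ : 0 < θ) (hε : 0 ≤ ε) :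
    nA3 (skCS n hk hx hx1) ⟨x, θ * x, t0, 1 - s - h, 1 - s, t2⟩ ≤
      (1 + ε) * nRR (skCS n hk hx hx1) ⟨x, θ * x, t0, 1 - s - h, 1 - s, t2⟩ := by
  have h1 := RepT.nA3_le_nRR (S := skCS n hk hx hx1) (pack_pm (θ := θ) (s := s) (t0 := t0)
    (h := h) (t2 := t2) hx hθ)
  have h2 := RepT.nRR_nonneg (S := skCS n hk hx hx1) (pack_pm (θ := θ) (s := s) (t0 := t0)
    (h := h) (t2 := t2) hx hθ)
  nlinarith

/-- the package of case N in the letters of `H95.PackN` -/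
theorem packN {σ : ℝ} {hk : 0 < β / √n} {hx : 0 < x} {hx1 : x ≤ 1}
    (P : PackR n β (1 / 10 ^ 6) (1 / 4) (8 * s) ch x s (skCS n hk hx hx1) θ0 t0 h s1 t2 NL NLt)
    (hN : NL ≤ (n : ℝ) ^ (3 * σ) * rho n β x s *
      (nRR (skCS n hk hx hx1) ⟨x, 1 / 4 * x, t0, 1 - s - h, 1 - s, t2⟩ / n)) :
    PackN n β σ ch x s (skCS n hk hx hx1) θ0 t0 h s1 t2
      (nRR (skCS n hk hx hx1) ⟨x, 1 / 4 * x, t0, 1 - s - h, 1 - s, t2⟩) NL NLt where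
  tm := P.tm
  deep := P.deep
  h_lo := P.h_lo
  sh := P.sh
  hF := P.hF
  hP := P.hP
  hR := P.hR (by norm_num)
  hA3 := PackR.hA3 (by norm_num) (by norm_num)
  hNt := P.hNt
  hN := hN

end pack

/-- the rows deliver the package at every regular point of case K -/
def GoodK (β e σ b ch : ℝ) : Prop := ∀ᶠ n : ℕ in atTop, ∀ x s : ℝ,
  Reg n β e σ (127 * σ) (25 * σ) ((n : ℝ) ^ (-(50 * σ))) x s →
  (n : ℝ) ^ (1 - 38 * σ) * s * x ^ 2 ≤ Gn n β x s →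
  ∀ (hk : 0 < β / √n) (hx : 0 < x) (hx1 : x ≤ 1), ∃ θ0 t0 h s1 t2 NL NLt : ℝ,
    PackR n β (1 / 10 ^ 6) (19 / 20) ((n : ℝ) ^ b * s) ch x s (skCS n hk hx hx1)
      θ0 t0 h s1 t2 NL NLt ∧
    2 * NL ≤ 47 / 25 * (β * x / n *
      nRR (skCS n hk hx hx1) ⟨x, 19 / 20 * x, t0, 1 - s - h, 1 - s, t2⟩) +
      1 / 100000 * (β * x / n *
        nRR (skCS n hk hx hx1) ⟨x, 19 / 20 * x, t0, 1 - s - h, 1 - s, t2⟩)

/-- **`RowK2` from the package.** -/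
theorem rowK2_of_good {β a0 e σ b ch : ℝ} (hβ : 0 < β) (hU : H695.UpM β a0)
    (haσ : a0 < 136 * σ) (hσ : 0 < σ) (hσ1 : 19 * σ < 1 / 12) (hb : 0 ≤ b) (hb1 : b < 6 * σ)
    (hch : 0 ≤ ch) (hc : 308 * σ + 2 * ch < 5 * e) (he : e ≤ 1 / 6)
    (h : GoodK β e σ b ch) : RowK2 β e σ := by
  refine rowK2_of (b := b) hβ (by linarith) hσ hb hb1 hσ1 ?_
  filter_upwards [h, ka_ev (d := 127 * σ) (w := 25 * σ) (σ := σ) (η := 1 / 100) (θ := 19 / 20)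
    hβ hU haσ hσ.le (by linarith) (by linarith) hch (by linarith) he (by norm_num) (by norm_num)
      (by norm_num), eventually_ge_atTop 1] with n h1 h3 hn x s hR hG
  have hn0 : 0 < n := hn
  have hn' : (0 : ℝ) < n := by exact_mod_cast hn0
  have hx := hR.x0 hn0
  have hx1 := hR.le1 hn0 hσ.le
  have hk : 0 < β / √n := by positivity
  obtain ⟨θ0, t0, h, s1, t2, NL, NLt, P, hNL⟩ := h1 x s hR hG hk hx hx1
  have hK := h3 _ x s h t0 t2 hR P.h_lo P.sh P.tm.ht0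
    (by have := P.tm.ht; simpa using this)
    (by have a := P.tm.h1; have b := P.tm.h2; simp only at a b; linarith)
    (by have a := P.tm.h3; simpa using a) hk hx hx1
  refine ⟨⟨x, θ0, t0, 1 - s, s1, t2⟩, 19 / 20 * x, h, skCS n hk hx hx1,
    NL, nRR (skCS n hk hx hx1) ⟨x, 19 / 20 * x, t0, 1 - s - h, 1 - s, t2⟩, ?_, hNL⟩
  have h9 : NLt ≤ NL + 1 / 1000000 * (β * x / n *
      nRR (skCS n hk hx hx1) ⟨x, 19 / 20 * x, t0, 1 - s - h, 1 - s, t2⟩) :=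
    P.hNt.trans (le_of_eq (by norm_num))
  refine ⟨rfl, P.tm, rfl, P.deep, by simpa using P.tm.h3, P.hF.trans h9, ?_, ?_, ?_, ?_⟩
  · refine le_trans (le_of_eq ?_) P.hP
    show β / √n * x * ((1 - 1 / 1000000) *
      nRR (skCS n hk hx hx1) ⟨x, 19 / 20 * x, t0, 1 - s - h, 1 - s, t2⟩ -
      nA3 (skCS n hk hx hx1) ⟨x, 19 / 20 * x, t0, 1 - s - h, 1 - s, t2⟩) = _
    norm_num
  · refine le_trans (le_of_eq ?_) (P.hR (by norm_num))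
    show (n : ℝ) * (7 / 10 * rho n β x s) *
      nA (skCS n hk hx hx1) ⟨x, 19 / 20 * x, t0, 1 - s - h, 1 - s, t2⟩ = _
    ring
  · exact PackR.hA3 (by norm_num) (by norm_num)
  · exact hK

end Vale.Agent.P146.H499.RowK
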