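import Vale.Agent.P146.H326.J1

/-!
Commutators of symmetric matrices: for a skew matrix `K` and an almost rank one positive
semidefinite matrix `C`, `tr (Kᵀ C K)` is at most about one half of `|C| |K|²`.
-/

open Matrix Vale.Agent.P146.H332 Vale.Agent.P146.H522 Vale.Agent.P146.H633 Vale.Agent.P146.H326.J1

namespace Vale.Agent.P146.H499.Skew

set_option linter.unusedSectionVars false
set_option linter.unusedDecidableInType false

variable {m : Type} [Fintype m] [DecidableEq m]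

/-- For a skew matrix and a unit vector `2 |K v|² ≤ |K|²`. -/
theorem skew_vec {K : Matrix m m ℝ} (hK : Kᵀ = -K) {v : m → ℝ} (hv : ∑ i, v i ^ 2 = 1) :
    2 * ∑ i, (K *ᵥ v) i ^ 2 ≤ fr K := by
  have hk : ∀ i j, K i j = -K j i := fun i j => by
    have := congrFun (congrFun hK j) i
    simpa [transpose_apply] using this
  set a : m → ℝ := K *ᵥ v with ha
  have ha' : ∀ i, a i = ∑ j, K i j * v j := fun i => rfl
  have e1 : ∑ i, ∑ j, K i j * (a i * v j) = ∑ i, a i ^ 2 := by
    refine Finset.sum_congr rfl fun i _ => ?_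
    rw [sq]
    nth_rewrite 3 [ha' i]
    rw [Finset.mul_sum]
    exact Finset.sum_congr rfl fun j _ => by ring
  have e2 : ∑ i, ∑ j, K i j * (v i * a j) = -∑ i, a i ^ 2 := by
    rw [Finset.sum_comm, ← Finset.sum_neg_distrib]
    refine Finset.sum_congr rfl fun j _ => ?_
    rw [sq]
    nth_rewrite 3 [ha' j]
    rw [Finset.mul_sum, ← Finset.sum_neg_distrib]
    refine Finset.sum_congr rfl fun i _ => ?_
    rw [hk i j]
    ring
  have e3 : ∑ i, v i * a i = 0 := by
    have h1 : ∑ i, v i * a i = ∑ i, ∑ j, K i j * (v i * v j) := by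
      refine Finset.sum_congr rfl fun i _ => ?_
      rw [ha' i, Finset.mul_sum]
      exact Finset.sum_congr rfl fun j _ => by ring
    have h2 : ∑ i, ∑ j, K i j * (v i * v j) = -∑ i, ∑ j, K i j * (v i * v j) := by
      conv_lhs => rw [Finset.sum_comm]
      rw [← Finset.sum_neg_distrib]
      refine Finset.sum_congr rfl fun j _ => ?_
      rw [← Finset.sum_neg_distrib]
      refine Finset.sum_congr rfl fun i _ => ?_
      rw [hk i j]
      ring
    linarith
  have e4 : ∑ i, ∑ j, (a i * v j) ^ 2 = ∑ i, a i ^ 2 := by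
    calc ∑ i, ∑ j, (a i * v j) ^ 2 = ∑ i, a i ^ 2 * ∑ j, v j ^ 2 := by
          refine Finset.sum_congr rfl fun i _ => ?_
          rw [Finset.mul_sum]
          exact Finset.sum_congr rfl fun j _ => by ring
      _ = ∑ i, a i ^ 2 := by simp only [hv, mul_one]
  have e5 : ∑ i, ∑ j, (v i * a j) ^ 2 = ∑ i, a i ^ 2 := by
    rw [Finset.sum_comm, ← e4]
    exact Finset.sum_congr rfl fun i _ => Finset.sum_congr rfl fun j _ => by ring
  have e6 : ∑ i, ∑ j, (a i * v j) * (v i * a j) = 0 := by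
    calc ∑ i, ∑ j, (a i * v j) * (v i * a j) = ∑ i, (v i * a i) * ∑ j, v j * a j := by
          refine Finset.sum_congr rfl fun i _ => ?_
          rw [Finset.mul_sum]
          exact Finset.sum_congr rfl fun j _ => by ring
      _ = 0 := by simp only [e3, mul_zero, Finset.sum_const_zero]
  have h0 : 0 ≤ ∑ i, ∑ j, (K i j - a i * v j + v i * a j) ^ 2 :=
    Finset.sum_nonneg fun i _ => Finset.sum_nonneg fun j _ => sq_nonneg _
  have h1 : ∑ i, ∑ j, (K i j - a i * v j + v i * a j) ^ 2 =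
      fr K - 2 * ∑ i, ∑ j, K i j * (a i * v j) + 2 * ∑ i, ∑ j, K i j * (v i * a j) +
        ∑ i, ∑ j, (a i * v j) ^ 2 + ∑ i, ∑ j, (v i * a j) ^ 2 -
        2 * ∑ i, ∑ j, (a i * v j) * (v i * a j) := by
    unfold fr
    simp only [Finset.mul_sum, ← Finset.sum_add_distrib, ← Finset.sum_sub_distrib]
    exact Finset.sum_congr rfl fun i _ => Finset.sum_congr rfl fun j _ => by ring
  rw [h1, e1, e2, e4, e5, e6] at h0
  linarith

/-- `tr (Kᵀ P K) ≤ |P| |K|²` -/
theorem tr_conj_le (P K : Matrix m m ℝ) : (Kᵀ * P * K).trace ≤ nf P * fr K := by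
  have h1 : (Kᵀ * P * K).trace = ∑ j, (fun i => K i j) ⬝ᵥ (P *ᵥ fun i => K i j) := by
    unfold Matrix.trace
    refine Finset.sum_congr rfl fun j _ => ?_
    rw [diag_apply, Matrix.mul_assoc, Matrix.mul_apply]
    rfl
  have h2 : fr K = ∑ j, ∑ i, K i j ^ 2 := by
    unfold fr
    exact Finset.sum_comm
  rw [h1, h2, Finset.mul_sum]
  exact Finset.sum_le_sum fun j _ => (le_abs_self _).trans (qf_le_nf P fun i => K i j)

lemma tr_conj_vv {K : Matrix m m ℝ} (hK : Kᵀ = -K) (v : m → ℝ) :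
    (Kᵀ * vecMulVec v v * K).trace = ∑ i, (K *ᵥ v) i ^ 2 := by
  have h1 : Kᵀ * vecMulVec v v * K = Kᵀ * vecMulVec v v * Kᵀᵀ := by rw [transpose_transpose]
  rw [h1, hK, Matrix.neg_mul, mul_vecMulVec, transpose_neg, neg_mul_neg, vecMulVec_mul,
    Matrix.trace_vecMulVec, dotProduct_comm]
  have h2 : v ᵥ* Kᵀ = K *ᵥ v := vecMul_transpose K v
  rw [h2, dot_self]

/-- For a skew `K` and a positive semidefinite `C`:
`tr (Kᵀ C K) ≤ (|C| / 2 + √dfc / |C|) |K|²`. -/
theorem skew_dfc [Nonempty m] {C K : Matrix m m ℝ} (hC : C.PosSemidef) (hK : Kᵀ = -K)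
    (hf : 0 < fr C) : (Kᵀ * C * K).trace ≤ (nf C / 2 + √(dfc C) / nf C) * fr K := by
  have hn : 0 < nf C := Real.sqrt_pos.2 hf
  obtain ⟨v, l, hv, he, -, hdd⟩ := top_eig (sym_of hC)
  obtain ⟨h1, h2, h3⟩ := dec (sym_of hC) hv he
  have hl : l ≤ nf C := by
    have h4 := (le_abs_self _).trans (qf_le_nf C v)
    have h5 : C *ᵥ v = l • v := by ext i; rw [he]; rfl
    rwa [h5, dotProduct_smul, dot_self, hv, smul_eq_mul, mul_one, mul_one] at h4
  have hP : nf (pj v * C * pj v) ≤ √(dfc C) / nf C := by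
    rw [le_div_iff₀ hn]
    refine Real.le_sqrt_of_sq_le ?_
    rw [mul_pow, nf_sq, nf_sq]
    exact hdd
  have h6 : (Kᵀ * C * K).trace = l * (Kᵀ * vecMulVec v v * K).trace +
      (Kᵀ * (pj v * C * pj v) * K).trace := by
    conv_lhs => rw [h1]
    rw [Matrix.mul_add, Matrix.add_mul, Matrix.mul_smul, Matrix.smul_mul, Matrix.trace_add,
      Matrix.trace_smul, smul_eq_mul]
  rw [h6, tr_conj_vv hK]
  have h7 := skew_vec hK hv
  have h8 : 0 ≤ ∑ i, (K *ᵥ v) i ^ 2 := Finset.sum_nonneg fun i _ => sq_nonneg _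
  have h9 := (tr_conj_le (pj v * C * pj v) K).trans
    (mul_le_mul_of_nonneg_right hP (fr_nonneg K))
  have h10 := mul_le_mul_of_nonneg_right hl h8
  nlinarith

/-- `tr (Kᵀ C K) ≤ (1/2 + √ε) |C| |K|²` -/
theorem skew_top [Nonempty m] {C K : Matrix m m ℝ} (hC : C.PosSemidef) (hK : Kᵀ = -K) {ε : ℝ}
    (hf : 0 < fr C) (hd : dfc C ≤ ε * fr C ^ 2) :
    (Kᵀ * C * K).trace ≤ (1 / 2 + √ε) * nf C * fr K := by
  have hn : 0 < nf C := Real.sqrt_pos.2 hf
  refine (skew_dfc hC hK hf).trans (mul_le_mul_of_nonneg_right ?_ (fr_nonneg K))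
  have h1 : √(dfc C) / nf C ≤ √ε * nf C := by
    rw [div_le_iff₀ hn]
    refine (Real.sqrt_le_sqrt hd).trans (le_of_eq ?_)
    have e : ε * fr C ^ 2 = ε * (nf C ^ 2) ^ 2 := by rw [nf_sq]
    rw [e, Real.sqrt_mul' _ (sq_nonneg _), Real.sqrt_sq (sq_nonneg _)]
    ring
  linarith

/-- the commutator of two symmetric matrices is skew -/
lemma comm_skew {A C : Matrix m m ℝ} (hA : Aᵀ = A) (hC : Cᵀ = C) :
    (A * C - C * A)ᵀ = -(A * C - C * A) := by
  rw [transpose_sub, transpose_mul, transpose_mul, hA, hC, neg_sub]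

/-- `|[A, C]|² = 2 tr A²C² - 2 tr ACAC` -/
lemma fr_comm {A C : Matrix m m ℝ} (hA : Aᵀ = A) (hC : Cᵀ = C) :
    fr (A * C - C * A) = 2 * (A * A * (C * C)).trace - 2 * (A * C * (A * C)).trace := by
  rw [fr_eq_trace, comm_skew hA hC, Matrix.mul_neg, Matrix.trace_neg, Matrix.sub_mul,
    Matrix.mul_sub, Matrix.mul_sub]
  simp only [Matrix.trace_sub]
  have e1 : (C * A * (C * A)).trace = (A * C * (A * C)).trace := by
    rw [Matrix.mul_assoc C A (C * A), Matrix.trace_mul_comm C, Matrix.mul_assoc, Matrix.mul_assoc,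
      Matrix.mul_assoc]
  have e2 : (A * C * (C * A)).trace = (A * A * (C * C)).trace := by
    rw [Matrix.trace_mul_comm (A * C) (C * A), Matrix.mul_assoc C A, Matrix.trace_mul_comm C,
      ← Matrix.mul_assoc A A C, Matrix.mul_assoc (A * A) C C]
  have e3 : (C * A * (A * C)).trace = (A * A * (C * C)).trace := by
    rw [Matrix.mul_assoc C A, Matrix.trace_mul_comm C, ← Matrix.mul_assoc A A C,
      Matrix.mul_assoc (A * A) C C]
  rw [e1, e2, e3]
  ring

/-- `tr [A, C]ᵀ C [A, C] = tr A²C³ - tr AC²AC` -/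
lemma tr_comm {A C : Matrix m m ℝ} (hA : Aᵀ = A) (hC : Cᵀ = C) :
    ((A * C - C * A)ᵀ * C * (A * C - C * A)).trace =
      (A * A * (C * C * C)).trace - (A * (C * C) * (A * C)).trace := by
  rw [comm_skew hA hC, Matrix.neg_mul, Matrix.neg_mul, Matrix.trace_neg, Matrix.sub_mul,
    Matrix.sub_mul, Matrix.mul_sub, Matrix.mul_sub]
  simp only [Matrix.trace_sub]
  have e1 : (A * C * C * (A * C)).trace = (A * (C * C) * (A * C)).trace := by
    rw [Matrix.mul_assoc A C C]
  have e2 : (A * C * C * (C * A)).trace = (A * A * (C * C * C)).trace := by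
    rw [← Matrix.mul_assoc (A * C * C) C A, Matrix.trace_mul_comm _ A]
    simp only [Matrix.mul_assoc]
  have e3 : (C * A * C * (A * C)).trace = (A * (C * C) * (A * C)).trace := by
    rw [← Matrix.mul_assoc (C * A * C) A C, Matrix.trace_mul_comm _ C]
    have h : (C * (C * A * C * A)).trace = ((C * C) * (A * C * A)).trace := by
      simp only [Matrix.mul_assoc]
    rw [h, Matrix.trace_mul_comm]
    have h2 : (A * C * A * (C * C)).trace = (A * C * (A * (C * C))).trace := by
      simp only [Matrix.mul_assoc]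
    rw [h2, Matrix.trace_mul_comm]
  have e4 : (C * A * C * (C * A)).trace = (A * (C * C) * (A * C)).trace := by
    have h : (C * A * C * (C * A)).trace = (C * (A * (C * (C * A)))).trace := by
      simp only [Matrix.mul_assoc]
    rw [h, Matrix.trace_mul_comm]
    simp only [Matrix.mul_assoc]
  rw [e1, e2, e3, e4]
  ring

/-- the drift term of the two time row against the commutator -/
theorem drift_le [Nonempty m] {A C : Matrix m m ℝ} (hA : Aᵀ = A) (hC : C.PosSemidef)
    (hf : 0 < fr C) :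
    (A * A * (C * C * C)).trace - (A * (C * C) * (A * C)).trace ≤
      (nf C / 2 + √(dfc C) / nf C) * fr (A * C - C * A) := by
  rw [← tr_comm hA (sym_of hC)]
  exact skew_dfc hC (comm_skew hA (sym_of hC)) hf

end Vale.Agent.P146.H499.Skew
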