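import Vale.Agent.P146.H737.C3

/-!
The rate `n^{1/3} / r` of one small exponential moment from the doubling inequality
`log E Z_{2n}^r ≤ 2 log E Z_n^r + C (1 + log n)^k n^{1/3}`.
-/

open MeasureTheory ProbabilityTheory Filter Topology

namespace Vale.Agent.P146.H499.T29

open Vale.Agent.P146 Vale.Agent.P146.H605 Vale.Agent.P146.H260.Asm Vale.Agent.P146.H737

/-- the logarithm of the exponential moment -/
noncomputable def LZ (n : ℕ) (β r : ℝ) : ℝ :=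
  Real.log (∫ g, Real.exp (r * freeEnergy n β g) ∂(disorder n))

/-- **The doubling inequality.** -/
def Dbl (β : ℝ) (k : ℕ) : Prop := ∃ C : ℝ, 0 ≤ C ∧ ∀ n : ℕ, 1 ≤ n → ∀ r : ℝ, 0 < r →
  r ≤ 1 / 2 → LZ (2 * n) β r ≤
    2 * LZ n β r + C * (1 + Real.log n) ^ k * (n : ℝ) ^ (1 / 3 : ℝ)

/-- the literal form of the doubling inequality -/
theorem Dbl.of {β C : ℝ} (h : ∀ n : ℕ, 1 ≤ n → ∀ x : ℝ, 0 < x → x ≤ 1 / 2 →
    Real.log (∫ g, Real.exp (x * freeEnergy (2 * n) β g) ∂(disorder (2 * n))) ≤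
      2 * Real.log (∫ g, Real.exp (x * freeEnergy n β g) ∂(disorder n)) +
        C * (n : ℝ) ^ (1 / 3 : ℝ) * (1 + Real.log n)) : Dbl β 1 := by
  refine ⟨max C 0, le_max_right _ _, fun n hn r hr hr2 => (h n hn r hr hr2).trans ?_⟩
  have hn1 : (1 : ℝ) ≤ n := by exact_mod_cast hn
  have hl : 0 ≤ Real.log n := Real.log_nonneg hn1
  have h1 : C * ((n : ℝ) ^ (1 / 3 : ℝ) * (1 + Real.log n)) ≤
      max C 0 * ((n : ℝ) ^ (1 / 3 : ℝ) * (1 + Real.log n)) :=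
    mul_le_mul_of_nonneg_right (le_max_left _ _) (by positivity)
  rw [pow_one]
  unfold LZ
  linarith

/-- the sizes -/
def sz (n j : ℕ) : ℕ := 2 ^ j * n

lemma sz_succ (n j : ℕ) : sz n (j + 1) = 2 * sz n j := by unfold sz; ring

lemma sz_pos {n : ℕ} (hn : 1 ≤ n) (j : ℕ) : 1 ≤ sz n j :=
  Nat.one_le_iff_ne_zero.2 (by unfold sz; positivity)

lemma sz_cast (n j : ℕ) : ((sz n j : ℕ) : ℝ) = 2 ^ j * n := by unfold sz; push_cast; ring

lemma log_sz {n : ℕ} (hn : 1 ≤ n) (j : ℕ) :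
    1 + Real.log (sz n j) ≤ (1 + j) * (1 + Real.log n) := by
  have hn1 : (1 : ℝ) ≤ n := by exact_mod_cast hn
  have hl : 0 ≤ Real.log n := Real.log_nonneg hn1
  have hj : (0 : ℝ) ≤ j := Nat.cast_nonneg j
  have h2 : Real.log 2 ≤ 1 := by
    have := Real.log_le_sub_one_of_pos (show (0 : ℝ) < 2 by norm_num)
    linarith
  rw [sz_cast, Real.log_mul (by positivity) (by positivity), Real.log_pow]
  nlinarith [mul_le_mul_of_nonneg_left h2 hj, mul_nonneg hj hl]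

lemma log_sz_nonneg {n : ℕ} (hn : 1 ≤ n) (j : ℕ) : 0 ≤ 1 + Real.log (sz n j) := by
  have h1 : (1 : ℝ) ≤ sz n j := by exact_mod_cast sz_pos hn j
  have := Real.log_nonneg h1
  linarith

lemma rpow_sz (n j : ℕ) (a : ℝ) :
    ((sz n j : ℕ) : ℝ) ^ a = ((2 : ℝ) ^ a) ^ j * (n : ℝ) ^ a := by
  rw [sz_cast, Real.mul_rpow (by positivity) (Nat.cast_nonneg n), ← Real.rpow_natCast 2 j,
    ← Real.rpow_mul (by norm_num), ← Real.rpow_natCast ((2 : ℝ) ^ a) j,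
    ← Real.rpow_mul (by norm_num), mul_comm (j : ℝ) a]

/-- the partial sums are bounded -/
lemma sum_bdd {q : ℝ} (hq0 : 0 < q) (hq : q < 1) (k : ℕ) :
    ∃ B : ℝ, 0 ≤ B ∧ ∀ j : ℕ, ∑ i ∈ Finset.range j, (1 + (i : ℝ)) ^ k * q ^ i ≤ B := by
  have h1 : Summable fun i : ℕ => ((i : ℝ)) ^ k * q ^ i :=
    summable_pow_mul_geometric_of_norm_lt_one k (by
      rw [Real.norm_eq_abs, abs_of_pos hq0]; exact hq)
  have h2 : Summable fun i : ℕ => (((i + 1 : ℕ) : ℝ)) ^ k * q ^ (i + 1) :=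
    (summable_nat_add_iff 1).2 h1
  have h3 : Summable fun i : ℕ => (1 + (i : ℝ)) ^ k * q ^ i := by
    refine (h2.mul_left q⁻¹).congr fun i => ?_
    push_cast
    rw [pow_succ q i, add_comm (i : ℝ) 1]
    field_simp
  refine ⟨∑' i : ℕ, (1 + (i : ℝ)) ^ k * q ^ i, tsum_nonneg fun i => by positivity, fun j =>
    h3.sum_le_tsum _ fun i _ => by positivity⟩

/-- `(1 + j)^k q^j → 0` -/
lemma tend_zero {q : ℝ} (hq0 : 0 < q) (hq : q < 1) (k : ℕ) :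
    Tendsto (fun j : ℕ => (1 + (j : ℝ)) ^ k * q ^ j) atTop (𝓝 0) := by
  have h1 : Summable fun i : ℕ => ((i : ℝ)) ^ k * q ^ i :=
    summable_pow_mul_geometric_of_norm_lt_one k (by
      rw [Real.norm_eq_abs, abs_of_pos hq0]; exact hq)
  have h2 : Summable fun i : ℕ => (((i + 1 : ℕ) : ℝ)) ^ k * q ^ (i + 1) :=
    (summable_nat_add_iff 1).2 h1
  have h3 : Summable fun i : ℕ => (1 + (i : ℝ)) ^ k * q ^ i := by
    refine (h2.mul_left q⁻¹).congr fun i => ?_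
    push_cast
    rw [pow_succ q i, add_comm (i : ℝ) 1]
    field_simp
  exact h3.tendsto_atTop_zero

/-- **The iterated doubling.** -/
theorem iter {β : ℝ} {k : ℕ} {C : ℝ} (hC : 0 ≤ C) {n : ℕ} (hn : 1 ≤ n) {r : ℝ}
    (h : ∀ m : ℕ, 1 ≤ m → LZ (2 * m) β r ≤
      2 * LZ m β r + C * (1 + Real.log m) ^ k * (m : ℝ) ^ (1 / 3 : ℝ)) (j : ℕ) :
    LZ (sz n j) β r / 2 ^ j ≤ LZ n β r + C * ((1 + Real.log n) ^ k * (n : ℝ) ^ (1 / 3 : ℝ)) *
      ∑ i ∈ Finset.range j, (1 + (i : ℝ)) ^ k * ((2 : ℝ) ^ (1 / 3 : ℝ) / 2) ^ i := by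
  have hn1 : (1 : ℝ) ≤ n := by exact_mod_cast hn
  have hl : 0 ≤ Real.log n := Real.log_nonneg hn1
  induction j with
  | zero => simp [sz]
  | succ j ih =>
    rw [sz_succ, Finset.sum_range_succ]
    have h1 := h (sz n j) (sz_pos hn j)
    have h2 : (1 + Real.log (sz n j)) ^ k ≤ ((1 + j) * (1 + Real.log n)) ^ k :=
      pow_le_pow_left₀ (log_sz_nonneg hn j) (log_sz hn j) k
    rw [rpow_sz] at h1
    have h3 : C * (1 + Real.log (sz n j)) ^ k * (((2 : ℝ) ^ (1 / 3 : ℝ)) ^ j *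
        (n : ℝ) ^ (1 / 3 : ℝ)) ≤ C * ((1 + j) * (1 + Real.log n)) ^ k *
        (((2 : ℝ) ^ (1 / 3 : ℝ)) ^ j * (n : ℝ) ^ (1 / 3 : ℝ)) := by gcongr
    have h4 : LZ (2 * sz n j) β r / 2 ^ (j + 1) ≤ LZ (sz n j) β r / 2 ^ j +
        C * ((1 + j) * (1 + Real.log n)) ^ k *
        (((2 : ℝ) ^ (1 / 3 : ℝ)) ^ j * (n : ℝ) ^ (1 / 3 : ℝ)) / 2 ^ j := by
      rw [← add_div, div_le_div_iff₀ (by positivity) (by positivity), pow_succ]
      have h5 : 0 ≤ C * ((1 + j) * (1 + Real.log n)) ^ k *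
        (((2 : ℝ) ^ (1 / 3 : ℝ)) ^ j * (n : ℝ) ^ (1 / 3 : ℝ)) := by positivity
      have h6 : LZ (2 * sz n j) β r ≤ (LZ (sz n j) β r + C * ((1 + j) * (1 + Real.log n)) ^ k *
        (((2 : ℝ) ^ (1 / 3 : ℝ)) ^ j * (n : ℝ) ^ (1 / 3 : ℝ))) * 2 := by linarith
      calc LZ (2 * sz n j) β r * 2 ^ j ≤ (LZ (sz n j) β r + C * ((1 + j) *
            (1 + Real.log n)) ^ k *
            (((2 : ℝ) ^ (1 / 3 : ℝ)) ^ j * (n : ℝ) ^ (1 / 3 : ℝ))) * 2 * 2 ^ j :=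
            mul_le_mul_of_nonneg_right h6 (by positivity)
        _ = _ := by ring
    have h7 : C * ((1 + j) * (1 + Real.log n)) ^ k *
        (((2 : ℝ) ^ (1 / 3 : ℝ)) ^ j * (n : ℝ) ^ (1 / 3 : ℝ)) / 2 ^ j =
        C * ((1 + Real.log n) ^ k * (n : ℝ) ^ (1 / 3 : ℝ)) *
          ((1 + (j : ℝ)) ^ k * ((2 : ℝ) ^ (1 / 3 : ℝ) / 2) ^ j) := by
      rw [mul_pow, div_pow]
      ring
    rw [h7] at h4
    linarith

lemma pow_lt_two {a : ℝ} (ha : a < 1) : (2 : ℝ) ^ a / 2 < 1 := by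
  rw [div_lt_one (by norm_num)]
  calc (2 : ℝ) ^ a < 2 ^ (1 : ℝ) := Real.rpow_lt_rpow_of_exponent_lt (by norm_num) ha
    _ = 2 := Real.rpow_one 2

/-- **The rate `n^{1/3} / r`.** -/
theorem tmh9 {β : ℝ} (hβ : 1 ≤ β) {k : ℕ} (h : Dbl β k) : TMh β (1 / 3) 1 k := by
  obtain ⟨C, hC, h1⟩ := h
  obtain ⟨D, hD, h2⟩ := tmh2 hβ
  obtain ⟨B, hB, h3⟩ := sum_bdd (q := (2 : ℝ) ^ (1 / 3 : ℝ) / 2) (by positivity)
    (pow_lt_two (by norm_num)) k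
  refine ⟨C * B, by positivity, fun n hn r hr hr2 hr6 => ?_⟩
  have hn1 : (1 : ℝ) ≤ n := by exact_mod_cast hn
  have hl : 0 ≤ Real.log n := Real.log_nonneg hn1
  have h4 := iter hC hn (fun m hm => h1 m hm r hr hr2)
  set X := C * ((1 + Real.log n) ^ k * (n : ℝ) ^ (1 / 3 : ℝ)) with hX
  have hX0 : 0 ≤ X := by positivity
  have key : ∀ j : ℕ, n * (Real.log 2 + Sh.Vx β r) ≤ 1 / r * (LZ n β r + X * B) +
      D * (1 + Real.log n) ^ 2 * (n : ℝ) ^ (2 / 3 : ℝ) *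
        ((1 + (j : ℝ)) ^ 2 * ((2 : ℝ) ^ (2 / 3 : ℝ) / 2) ^ j) := by
    intro j
    have h5 := h2 (sz n j) (sz_pos hn j) r hr hr2 (by
      refine hr6.trans (mul_le_mul_of_nonneg_left ?_ (by positivity))
      rw [sz_cast]
      exact le_mul_of_one_le_left (by linarith) (one_le_pow₀ (by norm_num)))
    rw [neg_zero, Real.rpow_zero, mul_one, rpow_sz, sz_cast] at h5
    have h6 : D * (1 + Real.log (sz n j)) ^ 2 * (((2 : ℝ) ^ (2 / 3 : ℝ)) ^ j *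
        (n : ℝ) ^ (2 / 3 : ℝ)) ≤ D * ((1 + j) * (1 + Real.log n)) ^ 2 *
        (((2 : ℝ) ^ (2 / 3 : ℝ)) ^ j * (n : ℝ) ^ (2 / 3 : ℝ)) := by
      have := pow_le_pow_left₀ (log_sz_nonneg hn j) (log_sz hn j) 2
      gcongr
    rw [sz_cast] at h6
    have e1 : Real.log (∫ g, Real.exp (r * freeEnergy (sz n j) β g) ∂(disorder (sz n j))) =
        LZ (sz n j) β r := rfl
    rw [e1] at h5
    have h7 : n * (Real.log 2 + Sh.Vx β r) ≤ 1 / r * (LZ (sz n j) β r / 2 ^ j) +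
        D * ((1 + j) * (1 + Real.log n)) ^ 2 *
        (((2 : ℝ) ^ (2 / 3 : ℝ)) ^ j * (n : ℝ) ^ (2 / 3 : ℝ)) / 2 ^ j := by
      rw [← mul_div_assoc, ← add_div, le_div_iff₀ (by positivity)]
      have e2 : n * (Real.log 2 + Sh.Vx β r) * 2 ^ j =
          2 ^ j * n * (Real.log 2 + Sh.Vx β r) := by ring
      rw [e2]
      linarith
    have h8 : LZ (sz n j) β r / 2 ^ j ≤ LZ n β r + X * B :=
      (h4 j).trans (add_le_add le_rfl (mul_le_mul_of_nonneg_left (h3 j) hX0))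
    have h9 : 1 / r * (LZ (sz n j) β r / 2 ^ j) ≤ 1 / r * (LZ n β r + X * B) :=
      mul_le_mul_of_nonneg_left h8 (by positivity)
    refine h7.trans (add_le_add h9 (le_of_eq ?_))
    rw [mul_pow, div_pow]
    ring
  have h10 : Tendsto (fun j : ℕ => 1 / r * (LZ n β r + X * B) +
      D * (1 + Real.log n) ^ 2 * (n : ℝ) ^ (2 / 3 : ℝ) *
        ((1 + (j : ℝ)) ^ 2 * ((2 : ℝ) ^ (2 / 3 : ℝ) / 2) ^ j)) atTop
      (𝓝 (1 / r * (LZ n β r + X * B) +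
        D * (1 + Real.log n) ^ 2 * (n : ℝ) ^ (2 / 3 : ℝ) * 0)) :=
    ((tend_zero (by positivity) (pow_lt_two (by norm_num)) 2).const_mul _).const_add _
  have h11 := ge_of_tendsto' h10 key
  rw [mul_zero, add_zero] at h11
  refine h11.trans (le_of_eq ?_)
  rw [Real.rpow_neg_one, hX]
  unfold LZ
  ring

end Vale.Agent.P146.H499.T29
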